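import Crest.Statements.S0003
import Crest.Agent.R003.Blk452_Mg
import Crest.Agent.R003.NF5f_990_Mg

set_option autoImplicit false
open Crest.NumberTheoryR.CharVarRel
open Crest Crest.NumberTheoryR

namespace Crest.Agent.S0003

/-- Let r ≥ 1, c_j ∈ SL_r(ℂ) (j < s) have all eigenvalues roots of unity, K ⊂ ℂ a number field containing them, p ≠ q primes greater than r, L = K(√2, pq-th roots of unity) with all r-th roots of all units of its integer ring adjoined. Among semisimple representations ρ of the genus-g, s-puncture surface group in SL_r(ℂ) with j-th boundary matrix conjugate to c_j, those with all integer invariants in L and integral over ℤ are Zariski dense: invariant polynomials vanishing there vanish at each ρ. -/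
theorem result (g s r : ℕ) (hr : 1 ≤ r)
    (c : Fin s → Matrix.SpecialLinearGroup (Fin r) ℂ) (hc : ∀ j, IsQuasiUnipotent (c j))
    (K : Subfield ℂ) (hK : FiniteDimensional ℚ K)
    (hcK : ∀ j, ∀ μ : ℂ, (c j).1.charpoly.IsRoot μ → μ ∈ K)
    (p q : ℕ) (hp : p.Prime) (hq : q.Prime) (hpq : p ≠ q) (hrp : r < p) (hrq : r < q)
    (f : MvPolynomial (RelVar g s r) ℂ) (hf : IsConjInvariantRel f)
    (hvan : ∀ T : RelGen g s → Matrix.SpecialLinearGroup (Fin r) ℂ, IsRelSurfaceRep g s r T →
      IsSemisimpleRep T → HasBoundaryClasses c T →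
      IsIntegrallyValuedIn (unitRootField (rootField K (p * q)) r) T → evalRep f T = 0)
    (T : RelGen g s → Matrix.SpecialLinearGroup (Fin r) ℂ) (hT : IsRelSurfaceRep g s r T)
    (hss : IsSemisimpleRep T) (hcl : HasBoundaryClasses c T) :
    evalRep f T = 0 := by
  have hE : ∀ n k0, Crest.Agent.R003.ElimStatement
      (Crest.Agent.R003.OO (rootField K (p * q))) n k0 := fun n k0 => Crest.Agent.R003.elim_of_core (Crest.Agent.R003.NF5.nf5core n) k0
  exact Crest.Agent.R003.Wire.result_of_three hr c hc K hcK (p * q) (hE r (r + 1))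
    (Crest.Agent.R003.Gl.closed_le K hK hp hq hpq hrp hrq fun k _ _ => hE k k)
    (fun O h1 h2 h3 => Crest.Agent.R003.Sys4.sys4 h1 h2 h3) f hf hvan T hT hss hcl

end Crest.Agent.S0003
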