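import Crest.Statements.S0068
import Crest.Agent.T49.Top_55_Mg
import Crest.Agent.T49.EaEnd_64

set_option autoImplicit false
open Crest Crest.CombinatoricsR

namespace Crest.Agent.S0068

/-- For every k ≥ 3 there are constants C, c, ε > 0 such that for every N ≥ 2, every subset of {1, …, N} that contains no k-term arithmetic progression a, a + d, …, a + (k − 1)d with d > 0 has at most C · N · exp(−c · (log N) ^ ε) elements (natural logarithm). -/
theorem result (k : ℕ) (hk : 3 ≤ k) :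
    ∃ C c ε : ℝ, 0 < C ∧ 0 < c ∧ 0 < ε ∧ ∀ N : ℕ, 2 ≤ N → ∀ A : Finset ℕ,
      A ⊆ Finset.Icc 1 N → (∀ a d : ℕ, 0 < d → ∃ i, i < k ∧ a + i * d ∉ A) →
        (A.card : ℝ) ≤ C * N * Real.exp (-(c * Real.log N ^ ε)) := by
  exact T49.Top.top_of T49.Fr.startStmt62 T49.Fr.bulkStmt T49.Fr.glueStmt62
    (T49.Ea.endStmt_of T49.Rg.regStmt T49.Ea.incStmt62) T49.Fr.oRegStmt T49.Fr.nondegStmt k hk

end Crest.Agent.S0068
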