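import Crest.Statements.S0026
import Crest.Agent.R020.LemZ_Mg

set_option autoImplicit false
open Filter Topology
open Crest Crest.NumberTheoryR

namespace Crest.Agent.S0026

/-- Let V(x) denote the number of natural numbers v ≤ x that are values of Euler's totient function at some positive integer. For every fixed real c > 0, the ratio V(c·x)/V(x) tends to c as x tends to infinity. -/
theorem result (c : ℝ) (hc : 0 < c) :
    Tendsto (fun x : ℝ =>
      (Set.ncard {v : ℕ | (v : ℝ) ≤ c * x ∧ ∃ n : ℕ, 0 < n ∧ Nat.totient n = v} : ℝ) /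
        (Set.ncard {v : ℕ | (v : ℝ) ≤ x ∧ ∃ n : ℕ, 0 < n ∧ Nat.totient n = v} : ℝ))
      atTop (𝓝 c) := by
  exact Crest.Agent.R020.asm_26 (Crest.Agent.R020.stmtZ Crest.Agent.R020.stmtU) Crest.Agent.R020.stmtU Crest.Agent.R020.stmtL Crest.Agent.R020.stmtUc Crest.Agent.R020.stmtLc c hc

end Crest.Agent.S0026
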