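import Crest.Statements.S0029
import Crest.Agent.R022.Surf586_Mg
import Crest.Agent.R22.InstC859_Mg

set_option autoImplicit false
open Crest.NumberTheoryR Filter Topology
open Crest Crest.NumberTheoryR

namespace Crest.Agent.S0029

/-- Let f be an integer polynomial, irreducible over ℚ, of degree d with 4 ≤ d ≤ 8, and let k = d − 2. Suppose that for every prime p some residue class modulo p^k contains no root of f modulo p^k. Then the Euler product over primes p of (1 − ρ(p^k)/p^k), ρ(q) being the number of roots of f modulo q, converges to a positive real c, and the number of integers 1 ≤ n ≤ X with f(n) k-power-free, divided by X, tends to c. -/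
theorem result (f : Polynomial ℤ) (k : ℕ)
    (hirr : Irreducible (f.map (Int.castRingHom ℚ))) (hdeg : 4 ≤ f.natDegree ∧ f.natDegree ≤ 8)
    (hk : k + 2 = f.natDegree) (hloc : ∀ p : ℕ, p.Prime → polyRootCountMod f (p ^ k) < p ^ k) :
    ∃ c : ℝ, 0 < c ∧
      HasProd (fun p : Nat.Primes => 1 - (polyRootCountMod f ((p : ℕ) ^ k) : ℝ) / ((p : ℕ) : ℝ) ^ k) c ∧
      Tendsto (fun N : ℕ => (powerFreeValueCount f k N : ℝ) / (N : ℝ)) atTop (𝓝 c) := by
  refine Crest.Agent.R022.Outer.outer f k hirr hdeg.1 hk hloc ?_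
  intro hF z hirrF hinj hz _ ρ hρ hρ2
  have hk2 : 2 ≤ k := by omega
  have hkF : k + 2 = (Crest.Agent.R022.Torsor.mon f).natDegree := by
    rw [Crest.Agent.R022.Torsor.mon_natDegree f]; exact hk
  have hk0 : (2 : ℝ) ≤ k := by exact_mod_cast hk2
  have hirrQ : Irreducible ((Crest.Agent.R022.Torsor.mon f).map (Int.castRingHom ℚ)) :=
    (hF.irreducible_iff_irreducible_map_fraction_map (K := ℚ)).mp hirrF
  have hρ23 : 2 / 3 ≤ ρ := by
    refine le_trans ?_ hρ
    rw [le_div_iff₀ (by linarith)]; linarith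
  exact Crest.Agent.R22.Inst859.sliceBoundAt Crest.Agent.R22.Levels859.levelsStmt' hF z hinj hz hkF
    hk2 hρ hρ2 (Crest.Agent.R022.Surf586.l1At hF z hinj hz hk2 hkF hρ23)
    (Crest.Agent.R022.Free712.l2At hF hirrQ z hinj hz hkF hk2 hρ)
    (Crest.Agent.R022.Curve354.l3At hF hirrF z hinj hz k hk2 hkF ρ _ (by linarith))

end Crest.Agent.S0029
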