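import Crest.Statements.S0031
import Crest.Agent.T24.All_33
import Crest.Agent.T24.NaJcSg_53_Mg

set_option autoImplicit false
open Crest.NumberTheoryR.UnitaryMP
open Crest Crest.NumberTheoryR

namespace Crest.Agent.S0031

/-- Let K/k be a quadratic extension of number fields with non-trivial automorphism σ, B a central simple K-algebra of degree d ≥ 3 with an involution τ of the second kind, and G = SU(B, τ) its special unitary group of rational points (reduced norm via a matrix embedding of B). Every normal subgroup of G not inside the centre contains all elements of G that are congruent to 1 to high enough order, in a fixed K-basis of B, at every split finite place of K at which B is a division algebra locally. -/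
theorem result
    (k K : Type*) [Field k] [NumberField k] [Field K] [NumberField K] [Algebra k K]
    (hK : Module.finrank k K = 2) (σ : K ≃ₐ[k] K) (hσ : σ ≠ AlgEquiv.refl)
    (B : Type*) [Ring B] [Algebra K B] [Algebra.IsCentral K B] [IsSimpleRing B]
    (d : ℕ) (hd : 3 ≤ d) (hB : Module.finrank K B = d ^ 2)
    (τ : B →+ B) (hτ : IsUnitaryInvolution σ τ)
    (L : Type*) [Field L] [Algebra K L] (φ : B →ₐ[K] Matrix (Fin d) (Fin d) L) (hφ : Function.Injective φ)
    {ι : Type*} (e : Module.Basis ι K B)
    (N : Set B) (hNG : N ⊆ specialUnitary τ φ) (h1 : (1 : B) ∈ N)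
    (hmul : ∀ x ∈ N, ∀ y ∈ N, x * y ∈ N) (hinv : ∀ x ∈ N, τ x ∈ N)
    (hnormal : ∀ g ∈ specialUnitary τ φ, ∀ x ∈ N, g * x * τ g ∈ N)
    (hnoncentral : ∃ x ∈ N, ∃ g ∈ specialUnitary τ φ, x * g ≠ g * x) :
    ∃ m : ℕ, ∀ g ∈ specialUnitary τ φ, CongruenceNear σ e m g → g ∈ N := by
  exact T24.fin
    (T24.mp_of_jc (T24.Na.J62.jc_of T24.Na.J62.coreStmt T24.Na.J52.frStmt T24.Na.J52.gapStmt
      T24.Na.J52.sgStmt))
    T24.Loc.valStmt T24.Loc.cofStmt k K hK σ hσ B d hd hB τ hτ L φ e N
    hNG h1 hmul hinv hnormal hnoncentral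

end Crest.Agent.S0031
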