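import Crest.Statements.S0037
import Crest.Agent.T27.Final2_49
import Crest.Agent.T27.Plug_65_Mg

set_option autoImplicit false
open Crest Crest.NumberTheoryR

namespace Crest.Agent.S0037

/-- Let a be an integer other than -1 that is not a perfect square. Then there are c > 0 and x₀ ≥ 2 such that for every real x ≥ x₀ the number of primes p with x < p < 2x, p not dividing a, for which a has multiplicative order p - 1 modulo p, is at least c·x/(log x)². -/
theorem result (a : ℤ) (ha : a ≠ -1)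
    (hsq : ¬ IsSquare a) :
    ∃ c : ℝ, 0 < c ∧ ∃ x₀ : ℝ, 2 ≤ x₀ ∧ ∀ x : ℝ, x₀ ≤ x →
      c * x / Real.log x ^ 2 ≤
        (Set.ncard {p : ℕ | p.Prime ∧ x < (p : ℝ) ∧ (p : ℝ) < 2 * x ∧ ¬ ((p : ℤ) ∣ a) ∧
          orderOf ((a : ℤ) : ZMod p) = p - 1} : ℝ) :=
  Crest.Agent.T27.artin_of_chebG_65
    (Crest.Agent.T27.chebG_of_rec_49 Crest.Agent.T27.Mn.rec_85) a ha hsq

end Crest.Agent.S0037
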