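import Crest.Statements.S0055
import Crest.Agent.N41.Pair.Bad_Mg
import Crest.Agent.N41.Exp.Main

set_option autoImplicit false
open Crest Crest.CombinatoricsR

namespace Crest.Agent.S0055

/-- For every natural number k ≥ 2 there is a real exponent c with 0 < c < 1 such that: for every integer polynomial h of degree exactly k with positive leading coefficient that has a root modulo every positive integer, there are a real constant C ≥ 1 and a threshold N₀ ≥ 1 such that for all N ≥ N₀, every finite set A of integers in [1, N] in which no two elements differ by a value h(n) with n ≥ 1 unless they are equal has at most C · N ^ (1 - c) elements. -/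
theorem result (k : ℕ) (hk : 2 ≤ k) :
    ∃ c : ℝ, 0 < c ∧ c < 1 ∧
      ∀ h : Polynomial ℤ, h.natDegree = k → 0 < h.leadingCoeff →
        (∀ q : ℕ, 1 ≤ q → ∃ t : ℤ, (q : ℤ) ∣ h.eval t) →
        ∃ C : ℝ, 1 ≤ C ∧ ∃ N₀ : ℕ, 1 ≤ N₀ ∧ ∀ N : ℕ, N₀ ≤ N →
          ∀ A : Finset ℤ, (∀ a ∈ A, 1 ≤ a ∧ a ≤ (N : ℤ)) →
            (∀ a ∈ A, ∀ b ∈ A, ∀ n : ℕ, 1 ≤ n → a - b = h.eval (n : ℤ) → a = b) →
            (A.card : ℝ) ≤ C * (N : ℝ) ^ ((1 : ℝ) - c) := by
  exact N41.Main.of_main_false (N41.Main.main_of false N41.ES.tail N41.Step.nf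
    (N41.Pair.pair_of false N41.complete (N41.Exp.weylStmt false) N41.Pair.eq_false
      (N41.Pair.bad false))) k hk

end Crest.Agent.S0055
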