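import Crest.Statements.S0056
import Crest.Agent.N41.Pair.Bad_Mg
import Crest.Agent.N41.Exp.Main
import Crest.Agent.N41.Exp.PsiAP

set_option autoImplicit false
open Crest Crest.CombinatoricsR

namespace Crest.Agent.S0056

/-- Assume every Dirichlet L-function, to any modulus b ≥ 1, is non-zero at every complex s with Re s > 7/8, the point s = 1 being exempted for the trivial character only. Let h be an integer polynomial of degree at least 2 with positive leading coefficient having, modulo every q ≥ 1, a root coprime to q. Then there are c > 0 and C ≥ 1 such that for all N ≥ 1, a finite set of integers in [1, N] whose elements differing by some h(p), p prime, are equal has at most C · N ^ (1 - c) elements. -/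
theorem result (h : Polynomial ℤ)
    (hdeg : 2 ≤ h.natDegree) (hlc : 0 < h.leadingCoeff)
    (hroot : ∀ q : ℕ, 1 ≤ q → ∃ r : ℤ, IsCoprime r (q : ℤ) ∧ (q : ℤ) ∣ h.eval r)
    (hL : ∀ (b : ℕ) [NeZero b] (χ : DirichletCharacter ℂ b) (s : ℂ),
      (7 : ℝ) / 8 < s.re → (χ = 1 → s ≠ 1) → DirichletCharacter.LFunction χ s ≠ 0) :
    ∃ c : ℝ, 0 < c ∧ ∃ C : ℝ, 1 ≤ C ∧ ∀ N : ℕ, 1 ≤ N →
      ∀ A : Finset ℤ, (∀ a ∈ A, 1 ≤ a ∧ a ≤ (N : ℤ)) →
        (∀ a ∈ A, ∀ b ∈ A, ∀ p : ℕ, p.Prime → a - b = h.eval (p : ℤ) → a = b) →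
        (A.card : ℝ) ≤ C * (N : ℝ) ^ ((1 : ℝ) - c) := by
  exact N41.Main.of_main_true (N41.Main.main_of true N41.ES.tail N41.Step.nf
    (N41.Pair.pair_of true N41.complete (N41.Exp.weylStmt true)
      (N41.Pair.eq_true (N41.Exp.psiAP hL)) (N41.Pair.bad true))) h hdeg hlc hroot

end Crest.Agent.S0056
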