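-- Statement S0073 (row 52).
import Crest.Statements.S0073
import Crest.Agent.R052.Dense
import Crest.Agent.R052.Degen_Mg

set_option autoImplicit false
open Crest Crest.CombinatoricsR

namespace Crest.Agent.S0073

open Crest.Agent.R052.Final in
theorem starL : StarLemma := Crest.Agent.R052.Star.starLemma

open Crest.Agent.R052.Final in
theorem hubL : HubLemma := Crest.Agent.R052.Hub.hub

open Crest.Agent.R052.Final in
theorem lowL : LowLemma := Crest.Agent.R052.LowSmall.low

open Crest.Agent.R052.Final in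
theorem smallL : SmallLemma := Crest.Agent.R052.LowSmall.small

open Crest.Agent.R052.Final in
theorem orientL : OrientLemma :=
  fun n W _ _ H p z h1 h2 h3 h4 => Crest.Agent.R052.Setup.orient n W H p z h1 h2 h3 h4

open Crest.Agent.R052.Final in
theorem commonL : CommonLemma := Crest.Agent.R052.Setup.common_nbrs

/-- There are k ≥ 2 and L ≥ 1 such that for all n ≥ 2 and every simple graph H with an edge, on at most n vertices, the edges of H can be labelled by k labels so that each label class H_i (same vertex set) has p_c(H_i; n) ≤ L · q(H; n), unfolded: for some p ∈ [0, 1] at which the family of edge sets of K_n containing a copy of H has a cover of cost Σ p^(card S) ≤ 1/2, the binomial random graph on n vertices at edge probability min(1, L·p) contains a copy of H_i with probability ≥ 1/2. -/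
theorem result :
    ∃ k : ℕ, 2 ≤ k ∧ ∃ L : ℝ, 1 ≤ L ∧ ∀ n : ℕ, 2 ≤ n →
      ∀ (W : Type) [Fintype W] [DecidableEq W] (H : SimpleGraph W),
        Fintype.card W ≤ n → H ≠ ⊥ →
        ∃ c : H.edgeSet → Fin k, ∀ i : Fin k, ∃ p : ℝ, 0 ≤ p ∧ p ≤ 1 ∧
          (∃ C : Finset (Finset (Crest.CombinatoricsR.RandomGraph.EdgeSlot n)),
            (∀ A : Finset (Crest.CombinatoricsR.RandomGraph.EdgeSlot n),
              H.IsContained (Crest.CombinatoricsR.RandomGraph.edgeGraph A) → ∃ S ∈ C, S ⊆ A) ∧
            ∑ S ∈ C, p ^ S.card ≤ 1 / 2) ∧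
          1 / 2 ≤ Crest.CombinatoricsR.RandomGraph.gnpProb n (min 1 (L * p))
            {G | (Crest.CombinatoricsR.RandomGraph.pieceGraph H c i).IsContained G} := by
  obtain ⟨n1, L1, k1, hL1, h1⟩ := Crest.Agent.R052.Final.sparse starL orientL
  obtain ⟨n2, L2, k2, hL2, h2⟩ := Crest.Agent.R052.Final.dense hubL lowL smallL orientL commonL
  refine ⟨max (max k1 k2) 2, le_max_right _ _,
    max (max L1 L2) (((max n1 n2 : ℕ) : ℝ) ^ 2), ?_, ?_⟩
  · exact le_trans (by linarith) ((le_max_left L1 L2).trans (le_max_left _ _))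
  · intro n hn W _ _ H hW hH
    obtain ⟨p, hpn, hp1, hcov, hcrit⟩ := Crest.Agent.R052.Setup.setup n hn W H hW hH
    have hsp := Crest.Agent.R052.Final.case_split hn L1 L2 hL1 hL2 n1 n2 k1 k2 W H hW p hpn
      (fun hn1 hp0 hLp hz => h1 n hn1 W H p hW hp0 hLp hcrit hz)
      (fun z hn2 hp0 hLp hz1 hz2 hz3 => h2 n hn2 W H p z hW hp0 hLp hcrit hz1 hz2 hz3)
    obtain ⟨c, hc⟩ := Crest.Agent.R052.Final.of_splits hsp
    refine ⟨c, fun i => ⟨p, ?_, hp1, hcov, hc i⟩⟩
    exact le_trans (by positivity) hpn

end Crest.Agent.S0073
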