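import Crest.Statements.S0074
import Crest.Agent.R053.Local_Mg

set_option autoImplicit false
open Crest Crest.CombinatoricsR

namespace Crest.Agent.S0074

/-- There are two matroids M₀, M₁ on the whole of ℕ (a countably infinite ground set), each equal to its own dual on the same labelled ground set, such that no independent set of M₀ together with an independent set of M₁ covers ℕ, and the pair has no packing/covering partition: no splitting ℕ = P ⊔ C allows disjoint S₀, S₁ ⊆ P with Sᵢ spanning the restriction of Mᵢ to P, and sets I₀, I₁ with union C, Iᵢ independent in the contraction of Mᵢ onto C (the complement of C contracted). -/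
theorem result :
    ∃ M₀ M₁ : Matroid ℕ, M₀.E = Set.univ ∧ M₁.E = Set.univ ∧ M₀.dual = M₀ ∧ M₁.dual = M₁ ∧
      (∀ I₀ I₁ : Set ℕ, M₀.Indep I₀ → M₁.Indep I₁ → I₀ ∪ I₁ ≠ Set.univ) ∧
      ¬ ∃ P C S₀ S₁ I₀ I₁ : Set ℕ, P ∪ C = Set.univ ∧ Disjoint P C ∧
          S₀ ⊆ P ∧ S₁ ⊆ P ∧ Disjoint S₀ S₁ ∧
          (M₀.restrict P).closure S₀ = P ∧ (M₁.restrict P).closure S₁ = P ∧
          I₀ ⊆ C ∧ I₁ ⊆ C ∧ (M₀.contract Cᶜ).Indep I₀ ∧ (M₁.contract Cᶜ).Indep I₁ ∧
          I₀ ∪ I₁ = C := by
  classical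
  obtain ⟨D, hD⟩ := Crest.Agent.R053.Split.exists_ultrafilter
  obtain ⟨F, hF⟩ := Crest.Agent.R053.Rec.exists_final Crest.Agent.R053.Split.ccIdeal D hD
    Crest.Agent.R053.Split.H (fun _ hP => Crest.Agent.R053.Split.finite_not_splits hP)
  let LB : Crest.Agent.R053.Nd Crest.Agent.R053.CC →
      Set (Set (Crest.Agent.R053.CC ⊕ Crest.Agent.R053.CC)) := fun N =>
    Crest.Agent.R053.Local.LB Crest.Agent.R053.Split.ccIdeal.sum Crest.Agent.R053.Split.blk
      Crest.Agent.R053.Split.g (Crest.Agent.R053.Fam.hat N)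
  have hLB : ∀ N ∈ F, Crest.Agent.R053.LocalBases Crest.Agent.R053.Split.ccIdeal.sum
      (Crest.Agent.R053.Fam.hat N) (LB N) := fun N hN =>
    Crest.Agent.R053.Local.exists_localBases Crest.Agent.R053.Split.fiber_finite
      Crest.Agent.R053.Split.g_pos Crest.Agent.R053.Split.g_tendsto
      Crest.Agent.R053.Split.ccIdeal.sum Crest.Agent.R053.Split.sum_small_iff
      (fun _ => Crest.Agent.R053.Split.sum_small_le) (Crest.Agent.R053.Fam.hat N)
      (fun h => by
        have h1 := h.2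
        rw [Set.preimage_compl, Crest.Agent.R053.Fam.inr_hat] at h1
        exact hD _ h1 (Ultrafilter.compl_mem_iff_notMem.mpr (hF.hb N hN)))
  exact Crest.Agent.R053.Glue.glue D (Crest.Agent.R053.Fam.bases F LB)
    (Crest.Agent.R053.Fam.ubase hD hF hLB) (Crest.Agent.R053.Fam.no_chain hD hF.toGood hLB)

end Crest.Agent.S0074
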