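import Crest.Statements.S0091
import Crest.Agent.R68.Main1
import Crest.Agent.R68.NOut_Mg
import Crest.Agent.R68.ASize_Mg
import Crest.Agent.R68.ColdOutAll
import Crest.Agent.R68.WGlue3

set_option autoImplicit false
open MeasureTheory
open scoped ENNReal
open Crest.AnalysisR.VecCalc3 Crest.AnalysisR.PDE.Boltzmann
open Crest Crest.AnalysisR Crest.AnalysisR.PDE Crest.AnalysisR.PDE.Boltzmann

namespace Crest.Agent.S0091

/-- Nonuniqueness for the hard-sphere Boltzmann equation on ℝ³/ℤ³: a nonnegative periodic datum with bounded velocities and finite mass, energy, entropy admits two global solutions differing on a positive-measure set: nonnegative weak solutions (smooth periodic tests) with local conservation of mass, momentum, energy, conserved total momentum, ∫‖v‖²F(t) ≤ ∫‖v‖²F₀, H_M(F(t)) + ∫₀ᵗ D(F) ≤ H_M(F₀), locally bounded mass, energy, entropy, strong L¹ continuity, weighted-integrable gain and loss. -/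
theorem result :
    ∃ R : ℝ, ∃ F₀ : R3 → R3 → ℝ, IsAdmissibleDatum F₀ R ∧
      ∃ F₁ F₂ : ℝ → R3 → R3 → ℝ, IsGlobalSolution F₁ F₀ ∧ IsGlobalSolution F₂ F₀ ∧
        0 < volume {p : ℝ × R3 × R3 | p ∈ region ∧ F₁ p.1 p.2.1 p.2.2 ≠ F₂ p.1 p.2.1 p.2.2} := by
  have h10 : (1 : ℝ) ≤ 10 := by norm_num
  have hX2 : Crest.Agent.R68.L.X2Out' 10 (1 / 25) (1 / 25) :=
    Crest.Agent.R68.X2.X2Out'_holds h10 (by norm_num) le_rfl
  have hM : Crest.Agent.R68.WP.MildOut 10 :=
    Crest.Agent.R68.WP.MildOut_of h10 (Crest.Agent.R68.WP.CausOut_holds 10 h10)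
      (Crest.Agent.R68.WP.ColdMildOut_holds 10 h10) (Crest.Agent.R68.WP.SizeOut_holds h10)
      (Crest.Agent.R68.WP.IntOut_holds h10)
  have hW : Crest.Agent.R68.Main0.WOut 10 :=
    Crest.Agent.R68.WP.WOut_of' (by norm_num) (Crest.Agent.R68.WP.TruncOut_holds h10)
      (Crest.Agent.R68.WP.ColdOut_holds h10) hM (Crest.Agent.R68.WP.CausOut_holds 10 h10)
  exact Crest.Agent.R68.Main0.main0 (by norm_num) (Crest.Agent.R68.L.LOut_of_X2 h10 hX2)
    Crest.Agent.R68.A.AOut_holds Crest.Agent.R68.KC.CKOut_holds Crest.Agent.R68.N.NOut_holds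
    hW (Crest.Agent.R68.D.DOut_holds 10 h10)

end Crest.Agent.S0091
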