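import Crest.Statements.S0107
import Crest.Agent.R080.PlaneFM_Mg
import Crest.Agent.R080.Polar_Mg
import Crest.Agent.R080.Cauchy
import Crest.Agent.R080.FM
import Crest.Agent.R080.Final_Mg
import Crest.Agent.R080.Lame_Mg
import Crest.Agent.R080.Interior
import Crest.Agent.R080.Orth_Mg

set_option autoImplicit false
open MeasureTheory
open scoped ContDiff
open Crest.AnalysisR.VecCalc3 Crest.AnalysisR.PDE.Elasticity
open Crest Crest.AnalysisR Crest.AnalysisR.PDE Crest.AnalysisR.PDE.Elasticity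

namespace Crest.Agent.S0107

open Crest.Agent.R080 in
theorem relations : StmtRelations := by
  have hZ := t_Z
  have hBdry := t_Bdry hZ
  have hKorn := t_Korn hZ
  have hPlane : StmtPlaneFM := t_PlaneFM t_Cauchy t_SmallFM t_Ksol
  have hRI := t_RI t_Cauchy t_SmallFM hPlane
  have hRI3 := t_RI3D (t_L2Solve t_Carleman) t_Interior
  have hW0 : StmtW0 := t_W0 hRI3 hRI (t_Lame hZ) t_Bilin (t_Polar hKorn) hKorn
  have hW1 : StmtW1 := t_W1 hW0 hBdry hZ (W1.t_Lift hRI)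
  have hOrth := t_Orth hW1 (t_FM t_SmallFM hPlane)
  exact t_Relations (t_Gauge hOrth hRI) hBdry hZ t_BdryLoc

/-- Let Ω ⊆ ℝ³ be a bounded connected open set with smooth boundary and (λ₁, μ₁), (λ₂, μ₂) pairs of real functions, smooth on the closure of Ω, with μⱼ > 0 and 3λⱼ + 2μⱼ > 0 there. If the pairs have the same boundary data — for each continuously differentiable boundary displacement, the infimum of the elastic energy ∫_Ω λ(div u)² + 2μ‖e(u)‖² over continuously differentiable u with that boundary value agrees for the two pairs (so, equal displacement-to-traction maps) — then λ₁ = λ₂ and μ₁ = μ₂ on Ω. -/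
theorem result
    (Ω : Set R3) (hopen : IsOpen Ω) (hbdd : Bornology.IsBounded Ω) (hconn : IsConnected Ω)
    (hbdry : Crest.AnalysisR.PDE.HasSmoothBoundary Ω)
    (lam₁ mu₁ lam₂ mu₂ : R3 → ℝ)
    (hl₁ : ContDiffOn ℝ ∞ lam₁ (closure Ω)) (hm₁ : ContDiffOn ℝ ∞ mu₁ (closure Ω))
    (hl₂ : ContDiffOn ℝ ∞ lam₂ (closure Ω)) (hm₂ : ContDiffOn ℝ ∞ mu₂ (closure Ω))
    (hpos : ∀ x ∈ closure Ω, 0 < mu₁ x ∧ 0 < 3 * lam₁ x + 2 * mu₁ x ∧ 0 < mu₂ x ∧ 0 < 3 * lam₂ x + 2 * mu₂ x)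
    (hdata : SameBoundaryData Ω lam₁ mu₁ lam₂ mu₂) :
    ∀ x ∈ Ω, lam₁ x = lam₂ x ∧ mu₁ x = mu₂ x := by
  exact Crest.Agent.R080.main Crest.Agent.R080.t_Extend relations Crest.Agent.R080.t_Final
    Ω hopen hbdd hconn hbdry lam₁ mu₁ lam₂ mu₂ hl₁ hm₁ hl₂ hm₂ hpos hdata

end Crest.Agent.S0107
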