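import Crest.Statements.S0119
import Crest.Agent.R090.TopG_491_Mg
import Crest.Agent.R090.EInI_466
import Crest.Agent.R090.F1Stmt_737_Mg
import Crest.Agent.R090.AFinal_923

set_option autoImplicit false
open Crest Crest.AnalysisR Crest.AnalysisR.OperatorAlgebra

namespace Crest.Agent.S0119

/-- Boundary-slot compression for explicit data (nested-tube torus T^{2p} in ℝ^{2p+1}, Bott-type line bundles on its T² factors): for p, n ≥ 1, 0 < a < 1/16, Y compact metrizable, f : Y → C(2p+1, n) continuous, if the slot bundle over the torus locus of (f, Z_{an}) carries a continuous family of K × 2pn matrices, K < 2pn, injective on fibres, then for each U ≥ 1 there are u ≥ U and a continuous G : Y^u → C(2p+1, un) with at least (a/8)un boundary slots everywhere, keeping all boundary slots of f. -/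
theorem result
    (p n : ℕ) (hp : 1 ≤ p) (hn : 1 ≤ n) (a : ℝ) (ha : 0 < a) (ha' : a < 1 / 16)
    (Y : Type*) [TopologicalSpace Y] [CompactSpace Y] [TopologicalSpace.MetrizableSpace Y]
    (f : Y → Fin n → Fin (2 * p + 1) → ℝ) (hf : Continuous f)
    (hfC : ∀ y, f y ∈ Crest.OpAlg.cube (2 * p + 1) n)
    (K : ℕ) (hK : K < 2 * p * n)
    (Φ : Y × (Fin n → Fin (2 * p) → Circle) → Matrix (Fin K) ((Fin 2 × Fin p) × Fin n) ℂ)
    (hΦ : ContinuousOn Φ (Crest.OpAlg.torusLocus p n (a * n) f))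
    (hmono : ∀ q ∈ Crest.OpAlg.torusLocus p n (a * n) f, ∀ v : (Fin 2 × Fin p) × Fin n → ℂ,
      (Crest.OpAlg.totalProj p n q.2).mulVec v = v → (Φ q).mulVec v = 0 → v = 0)
    (U : ℕ) (hU : 1 ≤ U) :
    ∃ u : ℕ, U ≤ u ∧ ∃ G : (Fin u → Y) → (Fin u × Fin n → Fin (2 * p + 1) → ℝ),
      Continuous G ∧ (∀ y s k, |G y s k| ≤ 1) ∧
      (∀ y, a / 8 * (u * n : ℝ) ≤ (({s | Crest.OpAlg.IsBoundarySlot (G y s)} : Set (Fin u × Fin n)).ncard : ℝ)) ∧
      ∀ y (b : Fin u) (j : Fin n), Crest.OpAlg.IsBoundarySlot (f (y b) j) → G y (b, j) = f (y b) j := by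
  exact Crest.Agent.R090.Spine.result_of_blocks
    (Crest.Agent.R090.F0_933.f0Stmt_of_start (fun M => Crest.Agent.R090.TopG491.topCell M)
      (fun _ _ _ _ _ _ w => Crest.Agent.R090.I0Start417.start w))
    Crest.Agent.R090.F1Core737.f1Stmt Crest.Agent.R090.EInI466.einI
    Crest.Agent.R090.AAsm923.aStmt Crest.Agent.R090.Kill649.killStmt
    Crest.Agent.R090.GlueStmt264.glueStmt
    p n hp hn a ha ha' Y f hf hfC K hK Φ hΦ hmono U hU

end Crest.Agent.S0119
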