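import Crest.Statements.S0134
import Crest.Agent.R102.NoRecP_971_Mg

set_option autoImplicit false
open Crest.AnalysisR.Billiard
open Crest Crest.AnalysisR Crest.AnalysisR.Billiard

namespace Crest.Agent.S0134

/-- Let `Ω` be a bounded strictly convex open planar region whose boundary is a smooth regular simple closed curve of nowhere-vanishing curvature. If there is a continuous caustic collar — a homeomorphism from (circle) × [0,1) onto a relatively open part of the closed region, height `0` going onto the boundary and each positive height onto a smooth closed convex caustic (billiard lines touching it reflect to lines touching it) — then `Ω` is the inside of an ellipse `(x − c)ᵀ Q (x − c) < 1`. -/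
theorem result (Ω : Set (ℝ × ℝ))
    (γ : ℝ → ℝ × ℝ) (P : ℝ) (hΩ : IsTable Ω γ P) (hcollar : HasCausticCollar Ω γ) :
    ∃ (c : ℝ × ℝ) (Q : Matrix (Fin 2) (Fin 2) ℝ), Q.PosDef ∧
      Ω = {x : ℝ × ℝ | dotProduct ![x.1 - c.1, x.2 - c.2]
        (Q.mulVec ![x.1 - c.1, x.2 - c.2]) < 1} := by
  exact Crest.Agent.R102.Final802.concl_of_norec Crest.Agent.R102.NoRec971.noRecP hΩ (Or.inl hcollar)

end Crest.Agent.S0134

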