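import Crest.Statements.S0135
import Crest.Agent.R102.NoRecP_971_Mg

set_option autoImplicit false
open Crest.AnalysisR.Billiard
open Crest Crest.AnalysisR Crest.AnalysisR.Billiard

namespace Crest.Agent.S0135

/-- Let `Ω` be a bounded strictly convex open planar region with smooth boundary of nowhere-vanishing curvature. Suppose a subset of the billiard map's phase cylinder (boundary point, angle of the outgoing velocity from the tangent) is open, carried onto itself by the map, contains all points of angle below some `η > 0`, and is the image of a homeomorphism from (circle) × (0,1) whose circles at fixed height are essential curves each carried onto itself by the map. Then `Ω` is an elliptical region. -/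
theorem result (Ω : Set (ℝ × ℝ))
    (γ : ℝ → ℝ × ℝ) (P : ℝ) (hΩ : IsTable Ω γ P) (hfol : HasInvariantPhaseFoliation Ω γ) :
    ∃ (c : ℝ × ℝ) (Q : Matrix (Fin 2) (Fin 2) ℝ), Q.PosDef ∧
      Ω = {x : ℝ × ℝ | dotProduct ![x.1 - c.1, x.2 - c.2]
        (Q.mulVec ![x.1 - c.1, x.2 - c.2]) < 1} := by
  exact Crest.Agent.R102.Final802.concl_of_norec Crest.Agent.R102.NoRec971.noRecP hΩ (Or.inr hfol)

end Crest.Agent.S0135

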