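import Crest.Statements.S0155
import Crest.Agent.R116.WTop8_188
import Crest.Agent.R116.RowUz_188
import Crest.Agent.R116.RTz_188_Mg

set_option autoImplicit false
open FourierTransform
open Crest Crest.AnalysisR

namespace Crest.Agent.S0155

/-- In ℝ³ with Mathlib's Fourier transform 𝓕 and inverse 𝓕⁻ (kernels exp (∓2πi ⟪x, ξ⟫)): for every real p > 2 and every real α > max 0 (1 - 3/p) there is C such that for every complex Schwartz function f, the L^p norm over (x, t) ∈ ℝ³ × [1, 2] of 𝓕⁻ (ξ ↦ exp (2πi t ‖ξ‖) • 𝓕 f ξ) x (the half-wave evolution of f) is at most C times the L^p norm on ℝ³ of 𝓕⁻ (ξ ↦ (1 + 4π²‖ξ‖²) ^ (α/2) • 𝓕 f ξ) (the Bessel potential of order α of f). -/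
theorem result (p : ℝ) (hp : 2 < p) (α : ℝ)
    (hα : max 0 (1 - 3 / p) < α) :
    ∃ C : ℝ, ∀ f : SchwartzMap (EuclideanSpace ℝ (Fin 3)) ℂ,
      MeasureTheory.eLpNorm
          (fun z : (EuclideanSpace ℝ (Fin 3)) × ℝ =>
            𝓕⁻ (fun ξ : EuclideanSpace ℝ (Fin 3) =>
              Complex.exp (2 * Real.pi * z.2 * ‖ξ‖ * Complex.I) • 𝓕 (⇑f) ξ) z.1)
          (ENNReal.ofReal p)
          ((MeasureTheory.volume : MeasureTheory.Measure (EuclideanSpace ℝ (Fin 3))).prod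
            (MeasureTheory.volume.restrict (Set.Icc (1 : ℝ) 2))) ≤
        ENNReal.ofReal C *
          MeasureTheory.eLpNorm
            (𝓕⁻ (fun ξ : EuclideanSpace ℝ (Fin 3) =>
              ((1 + 4 * Real.pi ^ 2 * ‖ξ‖ ^ 2) ^ (α / 2) : ℝ) • 𝓕 (⇑f) ξ))
            (ENNReal.ofReal p) MeasureTheory.volume := by
  exact Crest.Agent.R116.WTop188.S0155_of_rows
    (Crest.Agent.R116.RowU188.rowU)
    (Crest.Agent.R116.SgI337.rowI_ex)
    (Crest.Agent.R116.RTz188.rowTie) p hp α hα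

end Crest.Agent.S0155
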