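import Crest.Statements.S0158
import Crest.Agent.R118.Glue_324
import Crest.Agent.R118.A5_862
import Crest.Agent.R118.RedAdapt_485_Mg

set_option autoImplicit false
open Crest.AnalysisR
open Crest Crest.AnalysisR

namespace Crest.Agent.S0158

/-- Let X be a nonzero real Banach space with the approximation property. If X has Rademacher cotype q with some constant and its dual space has Rademacher cotype r with some constant, for some q, r ≥ 2 (possibly different), then X is K-convex: its Rademacher projections are bounded on L₂ of the sign cubes uniformly in the dimension. Averages over signs are exact finite averages. -/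
theorem result
    (X : Type*) [NormedAddCommGroup X] [NormedSpace ℝ X] [CompleteSpace X] [Nontrivial X]
    (hAP : HasApproximationProperty X) (q r C D : ℝ) (hq : 2 ≤ q) (hr : 2 ≤ r)
    (hX : HasRademacherCotype X q C)
    (hX' : HasRademacherCotype (StrongDual ℝ X) r D) :
    IsKConvex X :=
  Crest.Agent.R118.Glue324.glue
    (fun β a as L M hβ0 hβ1 hL hM ha has hML =>
      Crest.Agent.R118.A5_862.thmA_uniform β a as L M hβ0 hβ1 hL hM ha has hML)
    (fun β a as L M n0 hβ0 hβ1 hβ2 ha has hL hM hn0 Z X _ _ _ _ T hT hLift hCot =>
      Crest.Agent.R118.LayerFinal408.hLayer β a as L M n0 hβ0 hβ1 hβ2 ha has hL hM hn0 Z X T hT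
        hLift hCot)
    Crest.Agent.R118.Endgame827.hEnd
    Crest.Agent.R118.APRed485.hRed
    X hAP q r C D hq hr hX hX'

end Crest.Agent.S0158
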