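import Crest.Statements.S0189
import Crest.Agent.R138.KMs_630
import Crest.Agent.R138.Ebn_627
-- import your own Crest.Agent.* helpers here

set_option autoImplicit false
open FourierTransform
open scoped ENNReal
open Crest Crest.AnalysisR

namespace Crest.Agent.S0189

/-- Work in `ℝ³` with Mathlib's Fourier transform `𝓕` (kernel `exp (-2πi ⟪x, ξ⟫)`) and its inverse `𝓕⁻`. Let `p ∈ [1, ∞]` be an extended exponent and `δ` a real order with `δ > max (3 * abs (1/p - 1/2) - 1/2) 0`, where `1/p` is read as `0` for `p = ∞`. Then there is a constant `C` such that for every complex Schwartz function `f`, the `L^p` norm of `𝓕⁻ (ξ ↦ (max (1 - ‖ξ‖²) 0) ^ δ • 𝓕 f ξ)` is at most `C` times the `L^p` norm of `f`. -/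
theorem result (p : ℝ≥0∞) (hp : 1 ≤ p)
    (δ : ℝ) (hδ : max (3 * abs ((p⁻¹).toReal - 1 / 2) - 1 / 2) 0 < δ) :
    ∃ C : ℝ, ∀ f : SchwartzMap (EuclideanSpace ℝ (Fin 3)) ℂ,
      MeasureTheory.eLpNorm
          (𝓕⁻ (fun ξ : EuclideanSpace ℝ (Fin 3) => ((max (1 - ‖ξ‖ ^ 2) 0) ^ δ : ℝ) • 𝓕 (⇑f) ξ)) p
          MeasureTheory.volume ≤
        ENNReal.ofReal C * MeasureTheory.eLpNorm (⇑f) p MeasureTheory.volume :=
  Crest.Agent.R138.Top630.s0189 Crest.Agent.R138.Wire627.eBn_holds p hp δ hδ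

end Crest.Agent.S0189
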