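import Crest.Statements.S0199
import Crest.Agent.T145.FinE_1
import Crest.Agent.T145.EvS1_48_Mg

set_option autoImplicit false
open Crest.ProbabilityR.SpinModel
open Crest Crest.ProbabilityR Crest.ProbabilityR.SpinModel

namespace Crest.Agent.S0199

open Crest.Agent.T145 Crest.Agent.T145.Fl Crest.Agent.T145.Ev in
theorem s1 : Crest.Agent.T145.Ev.S1Stmt :=
  s1Stmt48 semiStmt prodStmt U.locN hfStmt swStmt U.x1 U.x2 farEStmt detStmt basStmt tgStmt

/-- Planar XY model with free boundary on the boxes [−R, R]². Suppose C(b, r) is, for every b > 0 and r, the limit as R → ∞ of the box expectation of the cosine of the angle between the spins at the origin and at (r, 0), and m(b) is, for every b > 0, the limit of −log C(b, r) / r (the inverse correlation length). Let b_c be the infimum of the b > 0 with m(b) = 0. Then √(b_c − b) · log(1 / m(b)) converges, as b increases to b_c, to a positive real number. -/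
theorem result
    (C : ℝ → ℕ → ℝ)
    (hC : ∀ b : ℝ, 0 < b → ∀ r : ℕ,
      Filter.Tendsto (fun R : ℕ => xyBoxCorrelation b R r) Filter.atTop (nhds (C b r)))
    (m : ℝ → ℝ)
    (hm : ∀ b : ℝ, 0 < b →
      Filter.Tendsto (fun r : ℕ => -Real.log (C b r) / r) Filter.atTop (nhds (m b))) :
    ∃ A : ℝ, 0 < A ∧
      Filter.Tendsto
        (fun b : ℝ => Real.sqrt (sInf {b' : ℝ | 0 < b' ∧ m b' = 0} - b) * Real.log (1 / m b))
        (nhdsWithin (sInf {b' : ℝ | 0 < b' ∧ m b' = 0}) (Set.Iio (sInf {b' : ℝ | 0 < b' ∧ m b' = 0})))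
        (nhds A) := by
  exact Crest.Agent.T145.Top.s0199_of Crest.Agent.T145.All.t1m Crest.Agent.T145.All.t5a Crest.Agent.T145.All.p6
    Crest.Agent.T145.All.p1 Crest.Agent.T145.All.p4 Crest.Agent.T145.All.p5
    (Crest.Agent.T145.Ev.U.scale_of s1) C hC m hm

end Crest.Agent.S0199
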