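import Crest.Statements.S0214
import Crest.Agent.R151.Z74

set_option autoImplicit false
open Crest.ProbabilityR.FirstPassage
open Crest Crest.ProbabilityR Crest.ProbabilityR.FirstPassage

namespace Crest.Agent.S0214

/-- Independent Gamma edge weights of a fixed positive shape and positive rate on the square lattice. Any real function on the plane that is, for every vector v, the almost-sure limit of the passage time from the origin to the coordinatewise integer part of s v, divided by s, as s tends to infinity, is differentiable at every nonzero vector; and when the shape equals one, so that the weights are exponential of the given rate, its unit sublevel set is moreover strictly convex. -/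
theorem result
    (κ r : ℝ) (hκ : 0 < κ) (hr : 0 < r) (μ : ℝ × ℝ → ℝ)
    (hμ : ∀ v : ℝ × ℝ, ∀ᵐ t ∂(iidLaw (ProbabilityTheory.gammaMeasure κ r)),
      Filter.Tendsto (fun s : ℝ => passageTime t (0, 0) (⌊s * v.1⌋, ⌊s * v.2⌋) / s)
        Filter.atTop (nhds (μ v))) :
    (∀ v : ℝ × ℝ, v ≠ 0 → DifferentiableAt ℝ μ v) ∧
      (κ = 1 → StrictConvex ℝ {v : ℝ × ℝ | μ v ≤ 1}) := by
  exact Crest.Agent.R151.Z74.s0214_final κ r hκ hr μ hμ

end Crest.Agent.S0214
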