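import Crest.Statements.S0224
import Crest.Agent.T156.AltTopF_11
import Crest.Agent.T156.Key_88

set_option autoImplicit false
open Crest.ProbabilityR.SpinGlass
open Crest Crest.ProbabilityR Crest.ProbabilityR.SpinGlass

namespace Crest.Agent.S0224

/-- The zero-field Gaussian Ising mean-field spin glass at fixed inverse temperature β > 1. The log partition function on n spins, centred at its mean and divided by its standard deviation under the Gaussian disorder, converges in distribution as n tends to infinity to some probability law on the reals with mean zero, variance one and a finite exponential moment near the origin: the mean of every bounded continuous function of it converges to the integral against that law. -/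
theorem result
    (β : ℝ) (hβ : 1 < β) :
    ∃ ν : MeasureTheory.Measure ℝ, MeasureTheory.IsProbabilityMeasure ν ∧
      ∫ x, x ∂ν = 0 ∧ ∫ x, x ^ 2 ∂ν = 1 ∧
      (∃ c : ℝ, 0 < c ∧ MeasureTheory.Integrable (fun x => Real.exp (c * |x|)) ν) ∧
      ∀ f : BoundedContinuousFunction ℝ ℝ,
        Filter.Tendsto
          (fun n : ℕ => ∫ g, f ((logPartitionFunction n β g -
              ∫ g', logPartitionFunction n β g' ∂disorderLaw n) /
              Real.sqrt (ProbabilityTheory.variance (logPartitionFunction n β) (disorderLaw n)))
            ∂disorderLaw n)
          Filter.atTop (nhds (∫ x, f x ∂ν)) := by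
  exact Crest.Agent.T156.Soft.s24_of_s27 (Crest.Agent.T156.Soft.s27_of_key (by first | exact Crest.Agent.T156.Alt.key hβ | exact Crest.Agent.T156.Alt.key β hβ))

end Crest.Agent.S0224
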