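import Crest.Statements.S0226
import Crest.Agent.T156.AltTopF_11
import Crest.Agent.T156.Key_88

set_option autoImplicit false
open Crest.ProbabilityR.SpinGlass
open Crest Crest.ProbabilityR Crest.ProbabilityR.SpinGlass

namespace Crest.Agent.S0226

/-- The zero-field Gaussian Ising mean-field spin glass at fixed inverse temperature β > 1; F is the log partition function on n spins, and means, variances and probabilities are taken under the Gaussian disorder. For every η > 0: for all sufficiently large n the standard deviation of F lies between n^(1/6 - η) and n^(1/6 + η); and the probability that the absolute deviation of F from its mean lies between n^(1/6 - η) and n^(1/6 + η) tends to 1 as n tends to infinity. -/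
theorem result
    (β : ℝ) (hβ : 1 < β) (η : ℝ) (hη : 0 < η) :
    (∃ n₀ : ℕ, ∀ n : ℕ, n₀ ≤ n →
        (n : ℝ) ^ ((1 : ℝ) / 6 - η) ≤
            Real.sqrt (ProbabilityTheory.variance (logPartitionFunction n β) (disorderLaw n)) ∧
          Real.sqrt (ProbabilityTheory.variance (logPartitionFunction n β) (disorderLaw n)) ≤
            (n : ℝ) ^ ((1 : ℝ) / 6 + η)) ∧
      Filter.Tendsto
        (fun n : ℕ => (disorderLaw n).real {g | (n : ℝ) ^ ((1 : ℝ) / 6 - η) ≤
              |logPartitionFunction n β g - ∫ g', logPartitionFunction n β g' ∂disorderLaw n| ∧
            |logPartitionFunction n β g - ∫ g', logPartitionFunction n β g' ∂disorderLaw n| ≤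
              (n : ℝ) ^ ((1 : ℝ) / 6 + η)})
        Filter.atTop (nhds 1) := by
  exact Crest.Agent.T156.Soft.s26_of_s27 (Crest.Agent.T156.Soft.s27_of_key (by first | exact Crest.Agent.T156.Alt.key hβ | exact Crest.Agent.T156.Alt.key β hβ)) hη

end Crest.Agent.S0226
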