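import Crest.Statements.S0228
import Crest.Agent.T156.AltTopF_11
import Crest.Agent.T156.Key_88

set_option autoImplicit false
open Crest.ProbabilityR.SpinGlass
open Crest Crest.ProbabilityR Crest.ProbabilityR.SpinGlass

namespace Crest.Agent.S0228

/-- Same spin glass, β > 1. For each k ≥ 1 there is a real a_k with: for l ≥ 2 the order-k copy product P is integrable with mean the order-k fluctuation moment; for each h, w_h being the h-th series weight at log l, the size-law sum of (mean of ‖P‖)·‖w_h‖ is finite, and the normalising constant times the sum over h of the size-law sums of (mean of P)·w_h is a_k; fluctuation moments tend to a_k. And a_2 > 0; the standardised log partition function tends in law to a law of moments a_k/a_2^(k/2). -/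
theorem result
    (β : ℝ) (hβ : 1 < β) :
    ∃ a : ℕ → ℝ,
      (∀ k : ℕ, 1 ≤ k →
        (∀ l : ℕ, 2 ≤ l →
          MeasureTheory.Integrable (copyProduct l β k) (copyLaw l β k) ∧
            (∫ ω, copyProduct l β k ω ∂copyLaw l β k) = fluctuationMoment β k l) ∧
        (∀ h : ℕ, Summable (fun l : ℕ =>
          sizeLaw l * (∫ ω, |copyProduct l β k ω| ∂copyLaw l β k) *
            |seriesWeight h (Real.log l)|)) ∧
        HasSum (fun h : ℕ => sizeWeightSum *
            ∑' l : ℕ, sizeLaw l * (∫ ω, copyProduct l β k ω ∂copyLaw l β k) *
              seriesWeight h (Real.log l)) (a k) ∧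
        Filter.Tendsto (fun n : ℕ => fluctuationMoment β k n) Filter.atTop (nhds (a k))) ∧
      0 < a 2 ∧
      ∃ ν : MeasureTheory.Measure ℝ, MeasureTheory.IsProbabilityMeasure ν ∧
        (∀ f : BoundedContinuousFunction ℝ ℝ,
          Filter.Tendsto
            (fun n : ℕ => ∫ g, f ((logPartitionFunction n β g -
                ∫ g', logPartitionFunction n β g' ∂disorderLaw n) /
                Real.sqrt (ProbabilityTheory.variance (logPartitionFunction n β) (disorderLaw n)))
              ∂disorderLaw n)
            Filter.atTop (nhds (∫ x, f x ∂ν))) ∧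
        ∀ k : ℕ, 1 ≤ k → MeasureTheory.Integrable (fun x => x ^ k) ν ∧
          ∫ x, x ^ k ∂ν = a k / a 2 ^ ((k : ℝ) / 2) := by
  exact Crest.Agent.T156.Soft.s28_of_s27 (Crest.Agent.T156.Soft.s27_of_key (by first | exact Crest.Agent.T156.Alt.key hβ | exact Crest.Agent.T156.Alt.key β hβ))

end Crest.Agent.S0228
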