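import Crest.Statements.S0231
import Crest.Agent.T157.Up_74_Mg

set_option autoImplicit false
open Crest Crest.ProbabilityR

namespace Crest.Agent.S0231

/-- Heat-bath dynamics for `n` Ising spins, independent centred Gaussian couplings of variance `β²/n`, zero field, `β > 1`, from a start drawn from the Gibbs law, held fixed: in probability over the couplings, the Gibbs mass of starts whose law is within total variation `1/4` of the Gibbs law at time `exp(n^(1/10000))` (rate-one clock per site), or after `⌊exp(n^(1/10000))⌋` uniform-site attempts, tends to `0`; that of starts within `1/4` at some time `≤ exp(n^(1-1/40000000))` tends to `1`. -/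
theorem result (β : ℝ) (hβ : 1 < β)
    (η : ℝ) (hη : 0 < η) :
    Filter.Tendsto (fun n : ℕ => Crest.ProbabilityR.SpinGlassDynamics.disorderLaw n
        {g | η ≤ Crest.ProbabilityR.SpinGlassDynamics.gibbsMass n β g
          {x | Crest.ProbabilityR.SpinGlassDynamics.stateTV n β g (Real.exp ((n : ℝ) ^ (1 / 10000 : ℝ))) x ≤ 1 / 4}})
      Filter.atTop (nhds 0) ∧
    Filter.Tendsto (fun n : ℕ => Crest.ProbabilityR.SpinGlassDynamics.disorderLaw n
        {g | η ≤ Crest.ProbabilityR.SpinGlassDynamics.gibbsMass n β g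
          {x | Crest.ProbabilityR.SpinGlassDynamics.stateTVdisc n β g ⌊Real.exp ((n : ℝ) ^ (1 / 10000 : ℝ))⌋₊ x ≤ 1 / 4}})
      Filter.atTop (nhds 0) ∧
    Filter.Tendsto (fun n : ℕ => Crest.ProbabilityR.SpinGlassDynamics.disorderLaw n
        {g | Crest.ProbabilityR.SpinGlassDynamics.gibbsMass n β g
          {x | ∃ t : ℝ, 0 ≤ t ∧ t ≤ Real.exp ((n : ℝ) ^ (1 - 1 / 40000000 : ℝ)) ∧
            Crest.ProbabilityR.SpinGlassDynamics.stateTV n β g t x ≤ 1 / 4} ≤ 1 - η})
      Filter.atTop (nhds 0) := by
  exact Crest.Agent.T157.DTop.r31_of Crest.Agent.T157.An.tapStmt Crest.Agent.T157.Up.upGlue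
    β hβ η hη

end Crest.Agent.S0231
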