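import Crest.Statements.S0265
import Crest.Agent.R176.Machine.Phase845_Mg
import Crest.Agent.R176.Machine.PhaseAll845
import Crest.Agent.R176.Machine.Glue593
import Crest.Agent.R176.Machine.Own977E
import Crest.Agent.R176.Machine.Snd804G

set_option autoImplicit false
open Crest Crest.AlgebraR

namespace Crest.Agent.S0265

/-- There is a group that is infinite, finitely presented and residually finite, and in which every element has finite order equal to a power of `2`. -/
theorem result :
    ∃ (G : Type) (_ : Group G),
      Infinite G ∧ Group.IsFinitelyPresented G ∧ Group.ResiduallyFinite G ∧ IsPGroup 2 G := by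
  exact Crest.Agent.R176.Final313.s0265_of_phase
    (fun n => Crest.Agent.R176.Machine.Snd.exists_nonzero n Crest.Agent.R176.Machine.Lab0)
    (Crest.Agent.R176.Machine.Glue593.qall_of_normQ
      (fun _ _ _ _ _ _ _ => Crest.Agent.R176.Machine.normQ _) Crest.Agent.R176.Machine.Lab0)
    Crest.Agent.R176.Machine.Phase.phaseAll_Lab0

end Crest.Agent.S0265
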