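import Crest.Statements.S0268
import Crest.Agent.R178B.Vn_Mg

set_option autoImplicit false
open Crest Crest.AlgebraR

namespace Crest.Agent.S0268

open Crest.Agent.R178B in
lemma inputs : Inputs FIndM FIndA BMc GMc where
  blkM := ⟨fun h => indM_exact h, fun h s => indM_free' h s⟩
  blkA := ⟨fun h => indA_exact h, fun h s => indA_free' h s⟩
  fin := fun L => BMc_finite L
  seqM := fun N => seq1 N
  seqA := fun N' N i p hi hp h1 h2 h3 h4 => seq2 N' N i p hi hp h1 h2 h3 h4
  isoA := fun N h => seq3 N h

/-- There is a finite-dimensional unital associative algebra over the complex numbers whose finitely generated left modules have unbounded finite projective dimensions: for every natural number k some finitely generated left module has projective dimension at least k and finite. Projective dimension is taken in the category of left modules, through Mathlib's HasProjectiveDimensionLT. -/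
theorem result :
    ∃ (A : Type) (_ : Ring A) (_ : Algebra ℂ A), FiniteDimensional ℂ A ∧
      ∀ k : ℕ, ∃ N : ModuleCat.{0} A, Module.Finite A N ∧
        ¬ CategoryTheory.HasProjectiveDimensionLT N k ∧
        ∃ n : ℕ, CategoryTheory.HasProjectiveDimensionLT N n := by
  exact Crest.Agent.R178B.assembly inputs Crest.Agent.R178B.chain Crest.Agent.R178B.vn

end Crest.Agent.S0268
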