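-- Statement S0275 (row 184).
import Crest.Statements.S0275
import Crest.Agent.R184A.Main
import Crest.Agent.R184A.End275_Mg

set_option autoImplicit false
open Crest Crest.AlgebraR

namespace Crest.Agent.S0275

/-- Let m be the central binomial coefficient (1200 choose 600) and p the least divisor greater than one of (m!)^2 + 1. Then p is an odd prime, and there are a field with p^4 elements, a finitely generated group containing a non-identity element of finite order, and two elements a and b of the group algebra of that group over that field with a * b = 1 but b * a ≠ 1. -/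
theorem result :
    Nat.Prime (Nat.minFac ((Nat.choose 1200 600).factorial ^ 2 + 1)) ∧
    Odd (Nat.minFac ((Nat.choose 1200 600).factorial ^ 2 + 1)) ∧
    ∃ (K : Type) (_ : Field K) (G : Type) (_ : Group G),
      Nat.card K = Nat.minFac ((Nat.choose 1200 600).factorial ^ 2 + 1) ^ 4 ∧
      Group.FG G ∧ (∃ g : G, g ≠ 1 ∧ IsOfFinOrder g) ∧
      ∃ a b : MonoidAlgebra K G, a * b = 1 ∧ b * a ≠ 1 := by
  obtain ⟨h1, h2⟩ := Crest.Agent.R184A.minFac_factorial_sq_add_one Crest.Agent.R184A.two_le_choose
  refine ⟨h1, h2, ?_⟩
  generalize Nat.minFac ((Nat.choose 1200 600).factorial ^ 2 + 1) = p at h1 h2 ⊢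
  have hfact : Fact p.Prime := ⟨h1⟩
  have hp : p ≠ 2 := by
    rintro rfl
    exact absurd h2 (by decide)
  obtain ⟨Γ, iΓ, ⟨P⟩⟩ := Crest.Agent.R184A.exists_paradox p hp
  exact Crest.Agent.R184A.S0275_of_paradox p hp Γ P

end Crest.Agent.S0275
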