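import Crest.Statements.S0288
import Crest.Agent.R188.FinA8_Mg
import Crest.Agent.R188.LenWorld7

set_option autoImplicit false
open Crest Crest.AlgebraR

namespace Crest.Agent.S0288

theorem exists_world (p : ℕ) [Fact p.Prime] (k : Type) [Field k] [IsAlgClosed k] [CharP k p]
    (b : ℕ) : ∃ W : R188.Asm.World p k b, R188.Asm.Twist W := by
  have hexp : ExpChar k p := ExpChar.prime Fact.out
  have hperf : PerfectRing k p := PerfectField.toPerfectRing p
  obtain ⟨W⟩ := R188.LenWorld.nonempty_world p k b
  exact ⟨W, R188.FinA.twist' W⟩

/-- Let R be a regular local ring of Krull dimension d and let M and N be nonzero finitely generated R-modules such that M ⊗ N has finite length and the Krull dimensions of the supports of M and N add up to d. Then the alternating sum over i = 0, ..., d of the lengths of Tor_i(M, N) (the intersection multiplicity) is strictly positive. Tor is Mathlib's left-derived tensor product in the category of R-modules; lengths are read as natural numbers. -/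
theorem result (R : Type) [CommRing R]
    [IsRegularLocalRing R] (d : ℕ) (hd : ringKrullDim R = d) (M N : ModuleCat.{0} R)
    [Module.Finite R M] [Module.Finite R N] [Nontrivial M] [Nontrivial N]
    (hlen : IsFiniteLength R (TensorProduct R M N))
    (hdim : Module.supportDim R M + Module.supportDim R N = d) :
    0 < ∑ i ∈ Finset.range (d + 1), (-1 : ℤ) ^ i *
      ((Module.length R (((CategoryTheory.Tor (ModuleCat.{0} R) i).obj M).obj N)).toNat : ℤ) := by
  exact R188.Last.s288_of_world (fun p _ k _ _ _ b => exists_world p k b) R d hd M N hlen hdim

end Crest.Agent.S0288
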