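import Crest.Statements.S0317
import Crest.Agent.N206.TA.Geom_Mg
import Crest.Agent.N206.PL.KPR_Mg
import Crest.Agent.N206.PL.Serve_Mg
import Crest.Agent.N206.PL.Neck

set_option autoImplicit false
open MeasureTheory Crest.GeometryTopology.GraphMetric
open Crest Crest.GeometryTopology Crest.GeometryTopology.GraphMetric

namespace Crest.Agent.S0317

/-- There is a universal constant `C` such that for every finite connected planar graph `G` (planar: it has a drawing in the plane with vertices at distinct points and edges as simple arcs meeting only at common endpoints) and every assignment of positive real lengths to its edges, the shortest-path metric of `G` embeds into a real `L¹(μ)` space with distortion at most `C`: some map `f` satisfies `d(x,y) ≤ ‖f x - f y‖ ≤ C d(x,y)` for all vertices. -/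
theorem result :
    ∃ C : ℝ, ∀ (V : Type) [Fintype V] (G : SimpleGraph V), G.Connected → IsPlanar G →
      ∀ ℓ : Sym2 V → ℝ, (∀ e ∈ G.edgeSet, 0 < ℓ e) →
        ∃ (Ω : Type) (_ : MeasurableSpace Ω) (μ : Measure Ω) (f : V → Lp ℝ 1 μ),
          ∀ x y : V, wdist G ℓ x y ≤ ‖f x - f y‖ ∧ ‖f x - f y‖ ≤ C * wdist G ℓ x y := by
  have hk := N206.PL.kpr N206.PL.sel
  have hn := N206.PL.noise hk
  have ha := N206.TA.a2_of N206.TA.gain N206.PL.sel N206.TA.geom N206.TA.alg N206.TA.root
  exact N206.PL.reduce' N206.PL.top (N206.PL.eff0 (N206.PL.eff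
    (N206.PL.level hn (N206.PL.protect hk N206.PL.portal N206.PL.lemB') (N206.PL.serve hk hn ha))
    N206.PL.split (N206.PL.neckIneq N206.PL.neck)))

end Crest.Agent.S0317
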