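import Crest.Statements.S0321
import Crest.Agent.R208.ZT3
import Crest.Agent.R208.KX8
import Crest.Agent.R208.SC2_Mg

set_option autoImplicit false
open Crest.GeometryTopology.Submanifold
open Crest Crest.GeometryTopology

namespace Crest.Agent.S0321

/-- Let S be a compact connected smooth submanifold of Euclidean space of dimension n ≥ 1, with its induced metric and intrinsic distance, such that every unit-speed geodesic of S (a smooth curve in S with acceleration normal to S) realises the intrinsic distance between any two of its points at parameter distance at most the intrinsic diameter of S. Then S is two-point homogeneous: whenever d(p, q) = d(p', q') there is an intrinsic isometry of S taking p to p' and q to q'. -/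
theorem result
    (n N : ℕ) (hn : 1 ≤ n) (S : Set (EuclideanSpace ℝ (Fin N))) (hS : IsSubmanifold n N S)
    (hcpt : IsCompact S) (hconn : IsConnected S)
    (hmin : ∀ γ : ℝ → EuclideanSpace ℝ (Fin N), IsGeodesicIn S γ → (∀ t, ‖deriv γ t‖ = 1) →
      ∀ a b : ℝ, a ≤ b → b - a ≤ intrinsicDiam S → intrinsicDist S (γ a) (γ b) = b - a) :
    ∀ p q p' q' : S, intrinsicDist S p q = intrinsicDist S p' q' →
      ∃ Φ : S → S, IsIntrinsicIsometry S Φ ∧ Φ p = p' ∧ Φ q = q' := by
  exact Crest.Agent.R208.ZG.twoPt Crest.Agent.R208.ZT.types Crest.Agent.R208.KX.vol2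
    Crest.Agent.R208.ZG.vol4 Crest.Agent.R208.SC.vol8 n N hn S hS hcpt hconn hmin

end Crest.Agent.S0321
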