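import Crest.Statements.S0334
import Crest.Agent.R215.K9_Mg
import Crest.Agent.R215.K4
import Crest.Agent.R215.K6_Mg

set_option autoImplicit false
open MeasureTheory ProbabilityTheory
universe u v
open Crest Crest.GeometryTopology

namespace Crest.Agent.S0334

/-- In a finite-dimensional real inner product space carrying its standard Gaussian probability measure, for every finite family of measurable cells that are pairwise disjoint and cover the space, the sum over the cells of the squared norm of the cell's Gaussian first moment (the integral of the identity map over the cell) is at most `9 / (8 π)`. Empty cells are allowed. -/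
theorem result
    (E : Type u) [NormedAddCommGroup E] [InnerProductSpace ℝ E] [FiniteDimensional ℝ E]
    [MeasurableSpace E] [BorelSpace E]
    (ι : Type v) [Fintype ι] (A : ι → Set E)
    (hA : ∀ i, MeasurableSet (A i))
    (hdisj : Pairwise fun i j => Disjoint (A i) (A j))
    (hcov : ⋃ i, A i = Set.univ) :
    ∑ i, ‖∫ x in A i, x ∂stdGaussian E‖ ^ 2 ≤ 9 / (8 * Real.pi) := by
  refine Crest.Agent.R215.assemble E Crest.Agent.R215.K4.isEmpty_crit_four (fun k hk => ?_)
    ι A hA hdisj hcov
  rcases Nat.lt_or_ge k 9 with h9 | h9
  · rcases Nat.lt_or_ge k 7 with h7 | h7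
    · rcases Nat.lt_or_ge k 6 with h6 | h6
      · obtain rfl : k = 5 := by omega
        exact Crest.Agent.R215.K5.isEmpty_crit_five
      · obtain rfl : k = 6 := by omega
        exact Crest.Agent.R215.K6.isEmpty_crit_six
    · exact Crest.Agent.R215.K7.isEmpty_crit_seven_eight h7 (by omega)
  · exact Crest.Agent.R215.K9.isEmpty_crit_nine h9

end Crest.Agent.S0334
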