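import Crest.Statements.S0336
import Crest.Agent.R217.Col_555_Mg
import Crest.Agent.R217.CruxN_559
import Crest.Agent.R217.KDatEx_373
import Crest.Agent.R217.TopC_559

set_option autoImplicit false
open scoped Manifold ContDiff
open Crest Crest.GeometryTopology

namespace Crest.Agent.S0336

/-- There is no sequence of local data. -/
theorem no_kdat.{u} {n : ℕ}
    (D : ∀ k : ℕ, Crest.Agent.R217.Glob559.KDat.{u} n (Crest.Agent.R217.Ctl559.cs k)) : False :=
  Crest.Agent.R217.TopC559.false_of_twist D fun k s t hst hU _ =>
    Crest.Agent.R217.Col555.col_one_zero D k hst hU (Crest.Agent.R217.Box970.stdPar_k s t)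
      (Crest.Agent.R217.Box970.stdPar_ok hst)

/-- The crux in all dimensions. -/
theorem crux_all.{u} (n : ℕ) (hn : 1 ≤ n) : Crest.Agent.R217.SpecC478.Crux.{u} n :=
  Crest.Agent.R217.CruxN559.crux_of_cruxN n
    (Crest.Agent.R217.KDatEx373.cruxN_of_no_kdat (Nat.pos_of_ne_zero (by omega)) no_kdat)

/-- Let n ≥ 1. If a locally compact, second-countable, Hausdorff topological group acts faithfully and jointly continuously on a connected, second-countable, Hausdorff topological n-manifold without boundary (a space with an atlas of charts into ℝⁿ), then the group, with its given topology, admits an atlas of charts into some ℝᵈ for which it is a smooth Lie group. -/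
theorem result
    (n : ℕ) (hn : 1 ≤ n)
    (M : Type*) [TopologicalSpace M] [T2Space M] [SecondCountableTopology M] [ConnectedSpace M]
    [ChartedSpace (EuclideanSpace ℝ (Fin n)) M]
    (G : Type*) [Group G] [TopologicalSpace G] [IsTopologicalGroup G] [T2Space G]
    [SecondCountableTopology G] [LocallyCompactSpace G]
    [MulAction G M] [ContinuousSMul G M] [FaithfulSMul G M] :
    ∃ (d : ℕ) (c : ChartedSpace (EuclideanSpace ℝ (Fin d)) G),
      @LieGroup ℝ _ (EuclideanSpace ℝ (Fin d)) _ (EuclideanSpace ℝ (Fin d)) _ _
        𝓘(ℝ, EuclideanSpace ℝ (Fin d)) ∞ G _ _ c := by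
  exact Crest.Agent.R217.Top478.s0336_of_crux (fun n hn => crux_all n hn) n hn M G

end Crest.Agent.S0336
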