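import Crest.Statements.S0342
import Crest.Agent.N221.A1.End
import Crest.Agent.N221.NB.B1_Mg
import Crest.Agent.N221.NB.Glue

set_option autoImplicit false
open Crest.GeometryTopology.Submanifold
open Crest Crest.GeometryTopology

namespace Crest.Agent.S0342

/-- Let S be a compact connected smooth submanifold of Euclidean space of dimension n ≥ 3 whose induced metric has strictly negative sectional curvature, and let Φ be its geodesic flow on the unit tangent bundle. Then the Kolmogorov–Sinai entropy of the time-one map for the normalised Liouville measure equals its topological entropy on the unit tangent bundle if and only if the Riemann tensor of S is parallel (the metric is locally symmetric). -/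
theorem result
    (n N : ℕ) (hn : 3 ≤ n) (S : Set (EuclideanSpace ℝ (Fin N))) (hS : IsSubmanifold n N S)
    (hcpt : IsCompact S) (hconn : IsConnected S)
    (hneg : ∀ p ∈ S, ∀ (f : EuclideanSpace ℝ (Fin n) → EuclideanSpace ℝ (Fin N))
      (V : Set (EuclideanSpace ℝ (Fin n))), IsLocalParam n N S p f V →
      ∀ u v : EuclideanSpace ℝ (Fin n), 0 < gramDet f 0 u v → secNum f 0 u v < 0)
    (Φ : ℝ → EuclideanSpace ℝ (Fin N) × EuclideanSpace ℝ (Fin N) →
      EuclideanSpace ℝ (Fin N) × EuclideanSpace ℝ (Fin N)) (hΦ : IsGeodesicFlow S Φ) :
    ((ksEntropy (liouville S n) (Φ 1) : EReal) = Dynamics.coverEntropy (Φ 1) (unitTangent S))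
      ↔ CurvatureParallel n N S :=
  Crest.Agent.N221.s0342_of_core
    (Crest.Agent.N221.core_of_last Crest.Agent.N221.G0.soX
      (Crest.Agent.N221.NB.noS Crest.Agent.N221.NB.natS Crest.Agent.N221.NB.famS
        Crest.Agent.N221.NB.b1S Crest.Agent.N221.NB.topS))
    n N hn S hS hcpt hconn hneg Φ hΦ

end Crest.Agent.S0342
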