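import Crest.Statements.S0345
import Crest.Agent.T223.OsLa_10_Mg
import Crest.Agent.T223.Nf4_79
import Crest.Agent.T223.Hm9_77
import Crest.Agent.T223.StAsm_93_Mg
import Crest.Agent.T223.HnP4_76_Mg
import Crest.Agent.T223.NaAll_80_Mg

set_option autoImplicit false
open Crest.GeometryTopology.Submanifold
open Crest Crest.GeometryTopology

namespace Crest.Agent.S0345

open Crest.Agent.T223 in
theorem yauImm (n : ℕ) (hn : 1 ≤ n) : Br.YauImm n :=
  yau_of (U0.initStmt (Nf.nfStmt hn Hm.hoer (Lb.lbStmt n)) (Lb.lbStmt n))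
    (Os.osgStmt1 hn (Os.laStmt (Cn.lyhPtStmt n)) (Os.Lb43.lbStmt n) (Os.llStmt n)
      (St.stepStmt_of2 (St.nemStmt n) (St.asmStmt n)) (Os.renewStmt (Qc47.qcStmt n))
      (Os.initGStmt n))
    (limStmt n)
    (Fin95.finStmt (Hn38.geoStmt hn (Qc47.qcStmt n) (Hn.pinchStmt n)) (Na.naStmt hn))

/-- Let S be a connected non-compact closed 2n-dimensional smooth submanifold of Euclidean space (n ≥ 1) with an extrinsic Kähler structure J (an orthogonal complex structure on tangent spaces, smooth and parallel for the induced connection, making S a complete Kähler manifold) whose holomorphic bisectional curvature R(X, JX, JY, Y) is positive for all non-zero tangent X and Y. Then S is biholomorphic to complex n-space: a J-holomorphic map with injective differential maps S bijectively onto it. -/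
theorem result
    (n N : ℕ) (hn : 1 ≤ n) (S : Set (EuclideanSpace ℝ (Fin N))) (hS : IsSubmanifold (2 * n) N S)
    (hclosed : IsClosed S) (hconn : IsConnected S) (hnc : ¬ IsCompact S)
    (J : EuclideanSpace ℝ (Fin N) → (EuclideanSpace ℝ (Fin N) →L[ℝ] EuclideanSpace ℝ (Fin N)))
    (hJ : IsKahlerStructure (2 * n) N S J)
    (hpos : ∀ p ∈ S, ∀ (f : EuclideanSpace ℝ (Fin (2 * n)) → EuclideanSpace ℝ (Fin N))
      (V : Set (EuclideanSpace ℝ (Fin (2 * n)))), IsLocalParam (2 * n) N S p f V →
      ∀ X ∈ tangentAt f 0, ∀ Y ∈ tangentAt f 0, X ≠ 0 → Y ≠ 0 →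
        0 < riem4 f 0 X (J p X) (J p Y) Y) :
    ∃ Φ : EuclideanSpace ℝ (Fin N) → EuclideanSpace ℂ (Fin n),
      IsHolomorphicOnto (2 * n) N n S J Φ :=
  Crest.Agent.T223.Br.s0345_of yauImm n N hn S hS hclosed hconn hnc J hJ hpos

end Crest.Agent.S0345
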