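import Crest.Statements.S0346
import Crest.Agent.R224.Main
import Crest.Agent.R224.T.Asm276_Mg
import Crest.Agent.R224.T.Sub
import Crest.Agent.R224.T.T2
import Crest.Agent.R224.T.Fill_Mg

set_option autoImplicit false
open Crest.Topology
open Crest Crest.GeometryTopology

namespace Crest.Agent.S0346

/-- Let M be a compact connected Hausdorff second-countable space with charts into Euclidean four-space (a closed topological four-manifold) that is aspherical: a contractible space covers it by a surjective covering map. Fix a base point x, a finite set S generating the fundamental group Γ of M at x, and a real function f on Γ whose energy terms, the squares of f (g * s) - f g for g in Γ and s in S, are summable. Then for every ε > 0 the energy of f - u is below ε for some finitely supported u. -/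
theorem result
    (M : Type) [TopologicalSpace M] [T2Space M] [SecondCountableTopology M] [CompactSpace M]
    [ConnectedSpace M] [ChartedSpace (EuclideanSpace ℝ (Fin 4)) M]
    (hM : HasContractibleCover M) (x : M)
    (S : Finset (FundamentalGroup M x))
    (hS : Subgroup.closure (S : Set (FundamentalGroup M x)) = ⊤)
    (f : FundamentalGroup M x → ℝ)
    (hf : Summable fun p : FundamentalGroup M x × S =>
      (f (p.1 * (p.2 : FundamentalGroup M x)) - f p.1) ^ 2)
    (ε : ℝ) (hε : 0 < ε) :
    ∃ u : FundamentalGroup M x → ℝ, (Function.support u).Finite ∧
      ∃ E : ℝ, HasSum (fun p : FundamentalGroup M x × S =>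
        ((f - u) (p.1 * (p.2 : FundamentalGroup M x)) - (f - u) p.1) ^ 2) E ∧ E < ε :=
  Crest.Agent.R224.s0346_main Crest.Agent.R224.groupHalf
    (Crest.Agent.R224.T.nTop_final
      (Crest.Agent.R224.T.nSub (Crest.Agent.R224.T.nFill Crest.Agent.R224.T.nPrism))
      (Crest.Agent.R224.T.N2.nT2' Crest.Agent.R224.T.nGlue))
    M hM x S hS f hf ε hε

end Crest.Agent.S0346
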