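import Crest.Statements.S0367
import Crest.Agent.R237.FreeV0_Mg
import Crest.Agent.R237.F1

set_option autoImplicit false
open Crest.GeometryTopology
open Crest Crest.GeometryTopology

namespace Crest.Agent.S0367

open Crest.Agent.R237 in
theorem mkq_eq (a : Fin 19) : MK.q a = V0.q a := by
  ext i j
  have h := congrArg (Int.cast : ℤ → ℝ) (F1.qi_tb a i j)
  push_cast at h
  have h1 : V0.q a i j = (V0.qi a i j : ℝ) := rfl
  rw [h1, h]
  have hp : MK.pr a = F1.tb a := rfl
  simp only [MK.q, MK.sy, hp, Matrix.sub_apply, Matrix.add_apply, Matrix.single_apply]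
  simp only [eq_comm (a := i), eq_comm (a := j)]

/-- There exist a number of variables `m`, a direction `e` and a real polynomial `p` in `m` variables, hyperbolic with respect to `e` (homogeneous, positive at `e`, and with only real roots along every line in direction `e`), whose closed hyperbolicity cone is not a spectrahedral shadow: the cone is not the exact projection of the solution set of any finite real symmetric linear matrix inequality, whatever the matrix size and the number of auxiliary variables. -/
theorem result :
    ∃ (m : ℕ) (p : MvPolynomial (Fin m) ℝ) (e : Fin m → ℝ),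
      Hyperbolic.IsHyperbolic p e ∧
        ¬ Hyperbolic.IsSpectrahedralShadow (Hyperbolic.closedCone p e) := by
  have hq : Crest.Agent.R237.MK.q = Crest.Agent.R237.V0.q := funext mkq_eq
  obtain ⟨Xi, P, Z, phi, hP, hZ, h1, h2, h3, h4, h5, h6⟩ := Crest.Agent.R237.MK.exists_MK
  rw [hq] at h2 h3 h6
  exact Crest.Agent.R237.Asm.assemble (by norm_num) Crest.Agent.R237.V0.q
    Crest.Agent.R237.V0.q_symm Crest.Agent.R237.V0.pt
    (fun a k => Crest.Agent.R237.F1.eval_q k a)
    (fun g hg hv => Crest.Agent.R237.F1.hspan g hg hv)
    (fun W hW => Crest.Agent.R237.Free.hfree W hW)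
    Xi P Z phi hP hZ h1 h2 h3 h4 h5 h6

end Crest.Agent.S0367
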