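import Crest.Statements.S0377
import Crest.Agent.R244.ManCNCP
import Crest.Agent.R244.ColExists_Mg

set_option autoImplicit false
open Bundle Crest.GeometryTopology.Geodesic
open scoped ContDiff Manifold
open Crest Crest.GeometryTopology Crest.GeometryTopology.Geodesic

namespace Crest.Agent.S0377

/-- There is a compact connected orientable smooth 3-manifold `M` (Hausdorff, second countable, charted on `ℝ³`, hence without boundary) that carries a smooth Riemannian metric with no conjugate points — along every geodesic, a Jacobi field vanishing at two distinct parameters vanishes identically, geodesics and Jacobi fields being the solutions of the usual coordinate equations in charts — while no smooth Riemannian metric on `M` has all its sectional curvatures at most zero. -/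
theorem result :
    ∃ (M : Type) (_ : TopologicalSpace M) (_ : ChartedSpace (EuclideanSpace ℝ (Fin 3)) M)
      (_ : IsManifold 𝓘(ℝ, EuclideanSpace ℝ (Fin 3)) ∞ M),
      T2Space M ∧ SecondCountableTopology M ∧ CompactSpace M ∧ ConnectedSpace M ∧
      IsOrientable 3 M ∧
      (∃ g : ContMDiffRiemannianMetric 𝓘(ℝ, EuclideanSpace ℝ (Fin 3)) ∞ (EuclideanSpace ℝ (Fin 3))
          (fun x : M => TangentSpace 𝓘(ℝ, EuclideanSpace ℝ (Fin 3)) x), NoConjugatePoints g) ∧
      ∀ g : ContMDiffRiemannianMetric 𝓘(ℝ, EuclideanSpace ℝ (Fin 3)) ∞ (EuclideanSpace ℝ (Fin 3))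
          (fun x : M => TangentSpace 𝓘(ℝ, EuclideanSpace ℝ (Fin 3)) x), ¬ HasNonposSectionalCurvature g := by
  obtain ⟨C⟩ := Crest.Agent.R244.exists_collarData
  have hT2 := Crest.Agent.R244.ManC.theGlue_t2 C
  have hSC := Crest.Agent.R244.ManC.theGlue_secondCountable C
  refine ⟨(Crest.Agent.R244.ManC.theGlue C).M, inferInstance, inferInstance, inferInstance,
    hT2, hSC, Crest.Agent.R244.ManC.theGlue_compact C, Crest.Agent.R244.ManC.theGlue_connected C,
    Crest.Agent.R244.ManC.theGlue_isOrientable C,
    ⟨Crest.Agent.R244.ManC.theMetric C, Crest.Agent.R244.ManC.theMetric_noConjugatePoints C⟩, ?_⟩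
  intro g
  obtain ⟨F, hF⟩ := Crest.Agent.R244.ManC.exists_nilMap C
  exact Crest.Agent.R244.ManC2.Pres.not_hasNonposSectionalCurvature
    (Crest.Agent.R244.ManC.pres C) F hF g

end Crest.Agent.S0377
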