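import Crest.Statements.S0381
import Crest.Agent.R247.Kt13_328_Mg

set_option autoImplicit false
open scoped ContDiff Manifold
open Bundle Crest.GeometryTopology.CoordMetric Crest.GeometryTopology.ChartCurvature Crest.GeometryTopology.PointedLimit
universe u
noncomputable section
open Crest Crest.GeometryTopology

namespace Crest.Agent.S0381

/-- For each n ≥ 2 there is L ≥ 1 such that: if complete connected Riemannian n-manifolds M k (C^∞ metric, path distance) with Ric ≥ K·g in charts, whose unit balls about base points q k have normalised n-dimensional Hausdorff measure ≥ a fixed v > 0, converge in the pointed Gromov–Hausdorff sense to a complete pointed metric space (X, p), and the rescalings of X at p converge to ℝⁿ, then some open U ∋ p has a map F to ℝⁿ with F(U) open and L⁻¹·d(x,z) ≤ dist (F x) (F z) ≤ L·d(x,z) on U. -/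
theorem result
    (n : ℕ) (hn : 2 ≤ n) :
    ∃ L : ℝ, 1 ≤ L ∧
      ∀ (K : ℝ) (M : ℕ → Type u) [∀ k, MetricSpace (M k)] [∀ k, CompleteSpace (M k)]
        [∀ k, ConnectedSpace (M k)] [∀ k, ChartedSpace (EuclideanSpace ℝ (Fin n)) (M k)]
        [∀ k, IsManifold 𝓘(ℝ, EuclideanSpace ℝ (Fin n)) ∞ (M k)]
        [∀ k, RiemannianBundle (fun x : M k => TangentSpace 𝓘(ℝ, EuclideanSpace ℝ (Fin n)) x)]
        [∀ k, IsContMDiffRiemannianBundle 𝓘(ℝ, EuclideanSpace ℝ (Fin n)) ∞ (EuclideanSpace ℝ (Fin n))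
          (fun x : M k => TangentSpace 𝓘(ℝ, EuclideanSpace ℝ (Fin n)) x)]
        [∀ k, IsRiemannianManifold 𝓘(ℝ, EuclideanSpace ℝ (Fin n)) (M k)]
        [∀ k, MeasurableSpace (M k)] [∀ k, BorelSpace (M k)] (q : ∀ k, M k),
        (∀ k, HasRicciLowerBound n (M k) K) →
        (∃ v : ℝ, 0 < v ∧ ∀ k, ENNReal.ofReal v ≤
          MeasureTheory.Measure.euclideanHausdorffMeasure n (Metric.ball (q k) 1)) →
        ∀ (X : Type u) [MetricSpace X] [CompleteSpace X] (p : X),
          SeqPointedTendsto q p → RescalingsTendstoEuclidean p n →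
          ∃ U : Set X, IsOpen U ∧ p ∈ U ∧ ∃ F : X → EuclideanSpace ℝ (Fin n), IsOpen (F '' U) ∧
            ∀ x ∈ U, ∀ z ∈ U, L⁻¹ * dist x z ≤ dist (F x) (F z) ∧ dist (F x) (F z) ≤ L * dist x z :=
  Crest.Agent.R247.Fin550.s0381_of_d2 n fun _ =>
    ⟨Crest.Agent.R247.Kt328.d2HP n, Crest.Agent.R247.Kt328.d2gP n, Crest.Agent.R247.Kt328.d2qP n,
      Crest.Agent.R247.Kt328.d2kP n, Crest.Agent.R247.Kt328.d2n2P n, Crest.Agent.R247.Kt328.d2n1P n⟩

end Crest.Agent.S0381
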