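import Crest.Statements.S0384
import Crest.Agent.R249.StL_912_Mg

set_option autoImplicit false
open scoped ContDiff Manifold
open Bundle Crest.GeometryTopology.CoordMetric Crest.GeometryTopology.ChartCurvature
open Crest Crest.GeometryTopology

namespace Crest.Agent.S0384

/-- Let M be a compact connected smooth 4-manifold without boundary with a C^∞ Riemannian metric and its path distance, Einstein with Einstein constant c > 0 and with all sectional curvatures non-negative (computed in charts). If at some point some pair of coordinate vectors spanning a plane (positive Gram determinant) has curvature numerator ⟨R(u,v)v,u⟩ = 0, then M with distances multiplied by √c is locally isometrically covered by the product of two round unit 2-spheres. -/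
theorem result
    (M : Type*) [MetricSpace M] [ChartedSpace (EuclideanSpace ℝ (Fin 4)) M]
    [IsManifold 𝓘(ℝ, EuclideanSpace ℝ (Fin 4)) ∞ M] [CompactSpace M] [ConnectedSpace M]
    [RiemannianBundle (fun x : M => TangentSpace 𝓘(ℝ, EuclideanSpace ℝ (Fin 4)) x)]
    [IsContMDiffRiemannianBundle 𝓘(ℝ, EuclideanSpace ℝ (Fin 4)) ∞ (EuclideanSpace ℝ (Fin 4))
      (fun x : M => TangentSpace 𝓘(ℝ, EuclideanSpace ℝ (Fin 4)) x)]
    [IsRiemannianManifold 𝓘(ℝ, EuclideanSpace ℝ (Fin 4)) M]
    (c : ℝ) (hc : 0 < c) (hE : IsEinsteinWith 4 M c) (hK : HasNonnegSectionalCurvature 4 M)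
    (h0 : ∃ x : M, ∃ u v : EuclideanSpace ℝ (Fin 4),
      0 < gramDet (chartMetric 4 M x) (chartCentre 4 M x) u v ∧
        secNumer (chartMetric 4 M x) (chartCentre 4 M x) u v = 0) :
    IsLocallyCoveredBySphereProduct M c := by
  exact Crest.Agent.R249.TopS40.s0384 M Crest.Agent.R249.StL_912.st c hc hE hK h0

end Crest.Agent.S0384
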