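import Crest.Statements.S0385
import Crest.Agent.R249.StL_912_Mg

set_option autoImplicit false
open scoped ContDiff Manifold
open Bundle Crest.GeometryTopology.CoordMetric Crest.GeometryTopology.ChartCurvature
open Crest Crest.GeometryTopology

namespace Crest.Agent.S0385

/-- Let M be a compact connected smooth 4-manifold without boundary with a C^∞ Riemannian metric and its path distance. If M is Einstein and every pair of coordinate vectors spanning a plane has strictly positive sectional curvature (computed in charts), then for some a > 0, M with distances multiplied by √a is isometric to the round unit 4-sphere, to the complex projective plane with Fubini–Study distance arccos(abs ⟨p,q⟩), or to real projective 4-space with the round sphere's distance. -/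
theorem result
    (M : Type*) [MetricSpace M] [ChartedSpace (EuclideanSpace ℝ (Fin 4)) M]
    [IsManifold 𝓘(ℝ, EuclideanSpace ℝ (Fin 4)) ∞ M] [CompactSpace M] [ConnectedSpace M]
    [RiemannianBundle (fun x : M => TangentSpace 𝓘(ℝ, EuclideanSpace ℝ (Fin 4)) x)]
    [IsContMDiffRiemannianBundle 𝓘(ℝ, EuclideanSpace ℝ (Fin 4)) ∞ (EuclideanSpace ℝ (Fin 4))
      (fun x : M => TangentSpace 𝓘(ℝ, EuclideanSpace ℝ (Fin 4)) x)]
    [IsRiemannianManifold 𝓘(ℝ, EuclideanSpace ℝ (Fin 4)) M]
    (hE : IsEinstein 4 M) (hK : HasPosSectionalCurvature 4 M) :
    ∃ a : ℝ, 0 < a ∧ (IsHomotheticToRoundSphere M 4 a ∨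
      IsHomotheticToComplexProjective M 2 a ∨ IsHomotheticToRealProjective M 4 a) := by
  exact Crest.Agent.R249.TopS40.s0385 M Crest.Agent.R249.StL_912.st hE hK

end Crest.Agent.S0385
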