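import Crest.Statements.S0387
import Crest.Agent.N250.Fv.VarL_Mg
import Crest.Agent.N250.R0.LII_Mg
import Crest.Agent.N250.R0.LGood_Mg
import Crest.Agent.N250.R0.LJac_Mg
import Crest.Agent.N250.R0.LReal_Mg
import Crest.Agent.N250.Cn.Amb

set_option autoImplicit false
open Crest.GeometryTopology.MCF
open Crest Crest.GeometryTopology

namespace Crest.Agent.S0387

/-- Let `M t ⊆ ℝ³`, `0 ≤ t < T`, be a smooth mean curvature flow of closed bounded surfaces in level-set form (closed spacetime track, one ball containing every `M t`, local regular defining functions obeying the flow equation), `M 0` compact and connected. At every singular point `x₀` at time `T` some smooth properly embedded self-shrinker `S` has: the area measures of `λ·(M(T + s/λ²) - x₀)` converge weakly to those of `√(-s)·S` as `λ → ∞`, uniformly for `s` in compact parts of `(-∞, 0)`. -/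
theorem result (M : ℝ → Set E)
    (T : ℝ) (hT : 0 < T) (hM : IsSmoothMCF M T) (hc : IsCompact (M 0)) (hconn : IsConnected (M 0))
    (x₀ : E) (hx : IsSingularPoint M T x₀) :
    ∃ S : Set E, IsSelfShrinker S ∧ RescalingsConvergeTo M T x₀ S := by
  exact Crest.Agent.N250.Top.fin_G (Crest.Agent.N250.R0.gluedS_of
    Crest.Agent.N250.R0.exL
    Crest.Agent.N250.R0.goodL
    Crest.Agent.N250.R0.endL
    Crest.Agent.N250.R0.jacL
    (Crest.Agent.N250.R0.phiL_of Crest.Agent.N250.R0.datL Crest.Agent.N250.R0.iiL Crest.Agent.N250.R0.nlL)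
    (Crest.Agent.N250.R0.linL_of (Crest.Agent.N250.R0.jaL_of Crest.Agent.N250.R0.goodL Crest.Agent.N250.R0.endL Crest.Agent.N250.R0.jacL))
    Crest.Agent.N250.R0.matL
    Crest.Agent.N250.R0.Vc.varL
    Crest.Agent.N250.R0.actL
    Crest.Agent.N250.R0.amL
    Crest.Agent.N250.R0.realL)
    M T hT hM hc hconn x₀ hx

end Crest.Agent.S0387
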