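import Crest.Statements.S0395
import Crest.Agent.R257.ExTC_952_Mg
import Crest.Agent.R257.CDataQ_250_Mg
import Crest.Agent.R257.WtZ_258

set_option autoImplicit false
open Topology Filter
open Crest Crest.AlgGeometry

namespace Crest.Agent.S0395

/-- Let R > 0 and F be a function on ℂ³ × ℂ, holomorphic and zero at each point (0, t) with ‖t‖ < R, whose every slice x ↦ F (x, t), ‖t‖ < R, has an isolated critical point at 0 and a finite-dimensional local algebra (analytic germs modulo those generated by its first partial derivatives) of the same dimension as at t = 0. Then for some δ > 0 a homeomorphism Φ of open neighbourhoods of the set S of points (0, t), ‖t‖ < δ, preserves t, fixes S and all (x, 0) in its domain, and has F ∘ Φ = F (·, 0). -/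
theorem result
    (R : ℝ) (hR : 0 < R) (F : (Fin 3 → ℂ) × ℂ → ℂ)
    (hF : ∀ t : ℂ, ‖t‖ < R → AnalyticAt ℂ F (0, t) ∧ F (0, t) = 0)
    (hcrit : ∀ t : ℂ, ‖t‖ < R → fderiv ℂ (fun x => F (x, t)) 0 = 0 ∧
      ∀ᶠ x in 𝓝[≠] (0 : Fin 3 → ℂ), fderiv ℂ (fun x => F (x, t)) x ≠ 0)
    (hμ : ∀ t : ℂ, ‖t‖ < R →
      Module.Finite ℂ (Crest.AlgGeometry.Germ.JacobianQuotient 3 (fun x => F (x, t))) ∧
      Crest.AlgGeometry.Germ.milnorNumber 3 (fun x => F (x, t)) =
        Crest.AlgGeometry.Germ.milnorNumber 3 (fun x => F (x, 0))) :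
    ∃ δ : ℝ, 0 < δ ∧ ∃ Φ : OpenPartialHomeomorph ((Fin 3 → ℂ) × ℂ) ((Fin 3 → ℂ) × ℂ),
      (∀ t : ℂ, ‖t‖ < δ → ((0 : Fin 3 → ℂ), t) ∈ Φ.source ∧ Φ (0, t) = (0, t)) ∧
      (∀ p ∈ Φ.source, (Φ p).2 = p.2 ∧ F (Φ p) = F (p.1, 0)) ∧
      (∀ x : Fin 3 → ℂ, (x, (0 : ℂ)) ∈ Φ.source → Φ (x, 0) = (x, 0)) := by
  refine Crest.Agent.R257.TopC_952.top_clog (Crest.Agent.R257.FrBP_808.top_of_wn ?_ ?_) R hR F hF hcrit hμ
  · intro f hf T hC S L
    exact Crest.Agent.R257.Wt_258.wtd L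
  · intro f hf T hC hG S L nu n1 n2 hmono J
    exact ⟨Crest.Agent.R257.Exf_843.exNBP hf hC hG (Crest.Agent.R257.Tb_941.retStmt _) hmono (Crest.Agent.R257.BPC_554.coverP S) L J (Crest.Agent.R257.Wt_258.wtd L) (Crest.Agent.R257.CDataQ_250.nullStmt L J),
      Crest.Agent.R257.ExT2_952.exTBP hf hC hG (Crest.Agent.R257.Tb_941.retStmt _) hmono (Crest.Agent.R257.BPC_554.coverP S) L J (Crest.Agent.R257.Wt_258.wtd L) (Crest.Agent.R257.CDataQ_250.nullStmt L J)⟩

end Crest.Agent.S0395
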