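import Crest.Statements.S0402
import Crest.Agent.R264.LemJ3_Mg
import Crest.Agent.R264.JLMain_Mg
import Crest.Agent.R264.CI0_Mg
import Crest.Agent.R264.AS6_Mg
import Crest.Agent.R264.CK3_Mg
import Crest.Agent.R264.AChg_Mg
import Crest.Agent.R264.SmMain_Mg

set_option autoImplicit false
open Topology Filter
open Crest Crest.AlgGeometry

namespace Crest.Agent.S0402

theorem propC : Crest.Agent.R264.PropC := by
  intro N U Γ S n hn hU P
  obtain ⟨T⟩ := Crest.Agent.R264.CN.propC2 N U Γ S n hn hU P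
  obtain ⟨L⟩ := Crest.Agent.R264.CK.propC34_of Crest.Agent.R264.CI.c3 N U Γ S n hn hU P T
  exact Crest.Agent.R264.CP.model_of P T L

open Crest.Agent.R264 in
theorem thmAA : ThmAA :=
  AI.thmAT_of (AI.pkStmt AS.strataStmt AI.mSmooth Pk.pkCalc) LJ.lemJ Co.coordStmt AChg.fchartStmt
    SAU.arcStmt AI.farStmt JL.main Ctl.ctrlStmt (A9.boxStmt_of BshM.thmB_final)

/-- Let U be a connected bounded semialgebraic subset of ℂ^N, open in a complex algebraic set, and Γ a group of permutations of U, each locally the restriction of a holomorphic map of ℂ^N, acting properly discontinuously with compact quotient. Then U is biholomorphic to a bounded symmetric domain: there are a bounded connected open D in some ℂ^m, each point of which is an isolated fixed point of a holomorphic involution of D (how such domains are encoded), and inverse holomorphic maps U → D → U. -/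
theorem result
    (N : ℕ) (V U : Set (Fin N → ℂ)) (hV : Crest.AlgGeometry.Semialg.IsAlgebraicSet V)
    (hUV : ∃ O : Set (Fin N → ℂ), IsOpen O ∧ U = O ∩ V)
    (hconn : IsConnected U) (hsa : Crest.AlgGeometry.Semialg.IsSemialgebraic U)
    (hbd : Bornology.IsBounded U) (Γ : Subgroup (Equiv.Perm U))
    (hΓ : ∀ γ ∈ Γ, Crest.AlgGeometry.Semialg.IsHolomorphicMap U (fun y : U => ((γ y : U) : Fin N → ℂ)))
    (hpd : ProperlyDiscontinuousSMul Γ U)
    (hcpt : CompactSpace (Quotient (MulAction.orbitRel Γ U))) :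
    ∃ (m : ℕ) (D : Set (Fin m → ℂ)), Crest.AlgGeometry.Semialg.IsBoundedSymmetricDomain D ∧
      ∃ (Ψ : U → (Fin m → ℂ)) (Θ : (Fin m → ℂ) → (Fin N → ℂ)),
        Crest.AlgGeometry.Semialg.IsHolomorphicMap U Ψ ∧ DifferentiableOn ℂ Θ D ∧
        (∀ y : U, Ψ y ∈ D ∧ Θ (Ψ y) = (y : Fin N → ℂ)) ∧
        (∀ z ∈ D, ∃ y : U, (y : Fin N → ℂ) = Θ z ∧ Ψ y = z) :=
  Crest.Agent.R264.s0402_of Crest.Agent.R264.Sm.part0A thmAA propC Crest.Agent.R264.thmD
    N V U hV hUV hconn hsa hbd Γ hΓ hpd hcpt

end Crest.Agent.S0402
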