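import Crest.Statements.S0403
import Crest.Agent.N265.Br.Fin_Mg
import Crest.Agent.N265.M.Asm2

set_option autoImplicit false
open AlgebraicGeometry CategoryTheory
open Crest Crest.AlgGeometry

namespace Crest.Agent.S0403

/-- Let S be an integral scheme, smooth of relative dimension two and proper over Spec ℂ, whose structure sheaf has trivial cohomology in degrees one and two (irregularity zero and geometric genus zero). Then any two closed points x, y of S are rationally equivalent: the zero-cycle [x] − [y] is a finite sum of push-forwards of divisors of non-zero rational functions on integral curves closed in S, divisors being computed with the order of vanishing at closed points of each curve. -/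
theorem result
    (S : Scheme.{0}) [IsIntegral S] (f : S ⟶ Spec (.of ℂ))
    [SmoothOfRelativeDimension 2 f] [IsProper f]
    (hq : Subsingleton (Sheaf.H ((SheafOfModules.toSheaf S.ringCatSheaf).obj
      (SheafOfModules.unit S.ringCatSheaf)) 1 : Type))
    (hpg : Subsingleton (Sheaf.H ((SheafOfModules.toSheaf S.ringCatSheaf).obj
      (SheafOfModules.unit S.ringCatSheaf)) 2 : Type))
    (x y : S) (hx : IsClosed ({x} : Set S)) (hy : IsClosed ({y} : Set S)) :
    ∃ (n : ℕ) (C : Fin n → Scheme.{0}) (_ : ∀ k, IsIntegral (C k))
      (_ : ∀ k, IsLocallyNoetherian (C k)) (ι : ∀ k, C k ⟶ S)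
      (_ : ∀ k, IsClosedImmersion (ι k)) (g : ∀ k, (C k).functionField),
      (∀ k, Order.coheight ((ι k).base (genericPoint (C k))) = 1) ∧ (∀ k, g k ≠ 0) ∧
      ∀ p : S, IsClosed ({p} : Set S) →
        ({x} : Set S).indicator (1 : S → ℤ) p - ({y} : Set S).indicator 1 p =
          ∑ k, ∑ᶠ z ∈ (ι k).base ⁻¹' {p}, Scheme.ord (g k) z :=
  Crest.Agent.N265.Br.s0403_of_torsStmt
    (Crest.Agent.N265.Top.tors_of_model Crest.Agent.N265.M.modelStmt) S f hq hpg x y hx hy

end Crest.Agent.S0403
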