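import Crest.Statements.S0407
import Crest.Agent.R267.EndL_864_Mg

set_option autoImplicit false
open Topology Filter
open Crest Crest.AlgGeometry

namespace Crest.Agent.S0407

/-- For some natural number N > 3 divisible by eight there are two squarefree polynomials with real coefficients in N variables, each weighted homogeneous for some positive integer weights, each with an isolated critical point at the origin as a polynomial function on complex N-space, whose homogeneous components vanish below degree 2 (resp. 3) but not in degree 2 (resp. 3), and whose complex zero sets correspond under a homeomorphism between open neighbourhoods of the origin fixing it. -/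
theorem result :
    ∃ N : ℕ, 3 < N ∧ 8 ∣ N ∧ ∃ f g : MvPolynomial (Fin N) ℝ,
      Squarefree f ∧ Squarefree g ∧
      (∃ w : Fin N → ℕ, (∀ i, 0 < w i) ∧ ∃ d : ℕ, MvPolynomial.IsWeightedHomogeneous w f d) ∧
      (∃ w : Fin N → ℕ, (∀ i, 0 < w i) ∧ ∃ d : ℕ, MvPolynomial.IsWeightedHomogeneous w g d) ∧
      fderiv ℂ (fun z : Fin N → ℂ => MvPolynomial.aeval z f) 0 = 0 ∧
      (∀ᶠ z in 𝓝[≠] (0 : Fin N → ℂ), fderiv ℂ (fun z : Fin N → ℂ => MvPolynomial.aeval z f) z ≠ 0) ∧
      fderiv ℂ (fun z : Fin N → ℂ => MvPolynomial.aeval z g) 0 = 0 ∧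
      (∀ᶠ z in 𝓝[≠] (0 : Fin N → ℂ), fderiv ℂ (fun z : Fin N → ℂ => MvPolynomial.aeval z g) z ≠ 0) ∧
      (∀ j < 2, MvPolynomial.homogeneousComponent j f = 0) ∧
      MvPolynomial.homogeneousComponent 2 f ≠ 0 ∧
      (∀ j < 3, MvPolynomial.homogeneousComponent j g = 0) ∧
      MvPolynomial.homogeneousComponent 3 g ≠ 0 ∧
      ∃ φ : OpenPartialHomeomorph (Fin N → ℂ) (Fin N → ℂ),
        (0 : Fin N → ℂ) ∈ φ.source ∧ φ 0 = 0 ∧
        ∀ z ∈ φ.source, (MvPolynomial.aeval z f = 0 ↔ MvPolynomial.aeval (φ z) g = 0) := by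
  exact Crest.Agent.R267.S407_322.s0407 fun n _ D => Crest.Agent.R267.EndL_864.t3aP D

end Crest.Agent.S0407
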