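import Crest.Statements.S0419
import Crest.Agent.R276.MainSkel_723
import Crest.Agent.R276.LGeoZ_519
import Crest.Agent.R276.LFlatZ_793_Mg
import Crest.Agent.R276.LSat_152
import Crest.Agent.R276.LHull_720_Mg
import Crest.Agent.R276.NuF_327_Mg
import Crest.Agent.R276.LEv_220
import Crest.Agent.R276.LCY_464
import Crest.Agent.R276.LC4_63

set_option autoImplicit false
open AlgebraicGeometry CategoryTheory Crest.AlgGeometry.Divisors
open Crest Crest.AlgGeometry Crest.AlgGeometry.Divisors

namespace Crest.Agent.S0419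

/-- Iitaka subadditivity, smooth projective case: let `f : X ⟶ Z` be a surjective morphism with connected fibres of smooth projective complex varieties (integral, proper, smooth over `ℂ`, with ample divisors). For very general `z` and all `d, e`: if the fibre over `z` is smooth proper of dimension `n − m` with Kodaira dimension `≥ d` and `κ(Z) ≥ e`, then `κ(X) ≥ d + e`; `κ ≥ d` meaning some multiple of a canonical divisor has `d + 1` sections with algebraically independent ratios. -/
theorem result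
    (X Z : Scheme.{0}) [Algebra ℂ Γ(X, ⊤)] [Algebra ℂ Γ(Z, ⊤)]
    [IsIntegral X] [IsLocallyNoetherian X] [IsIntegral Z] [IsLocallyNoetherian Z] (n m : ℕ)
    (hX : IsSmoothProperVariety ℂ X n) (hZ : IsSmoothProperVariety ℂ Z m)
    (hXp : ∃ A : WeilDiv X, IsAmple A) (hZp : ∃ A : WeilDiv Z, IsAmple A)
    (f : X ⟶ Z) (hf : f ≫ structureMorphism ℂ Z = structureMorphism ℂ X)
    (hsurj : Function.Surjective f.base)
    (hconn : ∀ z : Spec (CommRingCat.of ℂ) ⟶ Z, z ≫ structureMorphism ℂ Z = 𝟙 _ →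
      PreconnectedSpace ↥(Limits.pullback f z))
    (KX : WeilDiv X) (hKX : IsCanonicalDivisor ℂ X n KX)
    (KZ : WeilDiv Z) (hKZ : IsCanonicalDivisor ℂ Z m KZ) :
    ∃ C : ℕ → Set Z, (∀ i, IsClosed (C i) ∧ C i ≠ Set.univ) ∧
      ∀ z : Spec (CommRingCat.of ℂ) ⟶ Z, z ≫ structureMorphism ℂ Z = 𝟙 _ →
        (∀ i, z.base (IsLocalRing.closedPoint ℂ) ∉ C i) →
        ∀ d e : ℕ, FibreKodairaDimGe ℂ f z (n - m) d → KodairaDimGe ℂ Z KZ e →
          KodairaDimGe ℂ X KX (d + e) := by
  have hEv : Crest.Agent.R276.Skel_220.LEv := Crest.Agent.R276.LEv_220.lev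
  have hC1 : Crest.Agent.R276.Skel_220.LC1 := Crest.Agent.R276.LC1_986.lc1
  have hC4 : Crest.Agent.R276.Skel_220.LC4 := Crest.Agent.R276.LC4_63.lc4
  have hFlat : Crest.Agent.R276.Skel_220.LFlat := Crest.Agent.R276.LFlat_793.lflat
  exact Crest.Agent.R276.LComp_723.main_of_skel Crest.Agent.R276.SatG_152.lsat
    Crest.Agent.R276.LGeo_519.lgeo Crest.Agent.R276.LHull_720.lhull
    Crest.Agent.R276.LPerTow_849.lperTow hEv Crest.Agent.R276.LCY_464.lcy hC1
    (Crest.Agent.R276.LGlue_870.lc2 hEv) hC4 (Crest.Agent.R276.LGlue_870.ltch hEv) hFlat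
    X Z n m hX hZ hXp hZp f hf hsurj hconn KX hKX KZ hKZ

end Crest.Agent.S0419
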