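import Crest.Statements.S0453
import Crest.Agent.R299.Final
import Crest.Agent.R299.TripleGraph_Mg
import Crest.Agent.R299.Conn_Mg

set_option autoImplicit false
open Finset
open Crest Crest.LogicCS

namespace Crest.Agent.S0453

open Crest.Agent.R299 in
/-- the main operator inequality for graphs on `n` labeled vertices -/
theorem main_fin (n : ℕ) (f : (Sym2 (Fin n) → Bool) → ℝ) :
    2 * ∑ a, ∑ b ∈ univ.erase a, ∑ x, hh a b f x ^ 2
      ≤ ∑ x, (∑ a, ∑ b ∈ univ.erase a, hh a b f x) ^ 2 := by
  apply main_ineq
  · intro a b c hab hbc hca f
    exact triple_graph (fun κ S _ _ _ sl U hsl f => threeRow sl U hsl f) a b c hab hbc hca f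
  · intro a b c d hab hac had hbc hbd hcd f
    exact disjoint_pair a b c d hab hac had hbc hbd hcd f
  · intro a b hab f
    apply twoRow_J
    · exact fun z _ w _ h => Sym2.congr_right.mp h
    · exact fun z _ w _ h => Sym2.congr_right.mp h
    · exact Disj.slot_ne hab

/-- For every n ≥ 4 and every labeled degree vector on n vertices with a simple realization: the lazy switch chain (hold with probability 1/2, else take a uniform four-vertex set and a uniform ordered pair of distinct perfect matchings on it, swapping the first for the second when the first is present and the second absent) is, from every realization, within total variation 1/4 of uniform on the realizations after some t ≤ 2n^8 steps; and Var(f) ≤ 24 n² C(n,4) ⟨f, (I − P) f⟩ for the uniform law. -/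
theorem result (n : ℕ) (hn : 4 ≤ n)
    (d : Fin n → ℕ) (hd : (Crest.SwitchChain.realizations d).Nonempty) :
    (∃ t : ℕ, t ≤ 2 * n ^ 8 ∧ ∀ G ∈ Crest.SwitchChain.realizations d,
        Crest.SwitchChain.tvDist (fun G' => (Crest.SwitchChain.kernel n ^ t) G G')
          (Crest.SwitchChain.unifOn (Crest.SwitchChain.realizations d)) ≤ 1 / 4) ∧
      ∀ f : Finset (Crest.SwitchChain.Edge n) → ℝ,
        ((Crest.SwitchChain.realizations d).card : ℝ) *
              (∑ G ∈ Crest.SwitchChain.realizations d, f G ^ 2) -
            (∑ G ∈ Crest.SwitchChain.realizations d, f G) ^ 2 ≤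
          24 * (n : ℝ) ^ 2 * (n.choose 4 : ℝ) * (Crest.SwitchChain.realizations d).card *
            ∑ G ∈ Crest.SwitchChain.realizations d,
              f G * (f G - ∑ G' ∈ Crest.SwitchChain.realizations d,
                Crest.SwitchChain.kernel n G G' * f G') := by
  exact Crest.Agent.R299.final_S0453 hn
    (fun p q U hp hq hpq f => Crest.Agent.R299.twoRow_poincare p q U hp hq hpq f)
    (fun C hC hconn f => Crest.Agent.R299.poincare_of_main (main_fin n) C hC hconn f)
    (fun g hg x y hdiag hdeg => Crest.Agent.R299.conn g hg x y hdiag hdeg) d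

end Crest.Agent.S0453
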