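import Crest.Statements.S0502
import Crest.Agent.N325.Fin.Ev
import Crest.Agent.N325.Fin.Top_Mg
import Crest.Agent.N325.Fin.Or1
import Crest.Agent.N325.Ag.FinI_Mg

set_option autoImplicit false
open Crest.GraphRAM
open Crest Crest.LogicCS

namespace Crest.Agent.S0502

/-- On the unit-cost word RAM with word length c₀·⌈log₂(n+2)⌉ there are one randomized program, constants c₀, C and a nonincreasing η tending to 0 such that, on the adjacency-array input of any simple graph with n ≥ 1 vertices and m edges (neighbour lists in any order), every run halts within ⌈C·(n+m)^(1+η(n+m))⌉ instructions, and with probability at least 2/3 over the random words the output lists the edges of a maximum matching. -/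
theorem result :
    ∃ (P : Crest.WordRAM.Program) (c₀ C : ℕ) (η : ℕ → ℝ), Antitone η ∧
      Filter.Tendsto η Filter.atTop (nhds 0) ∧
      ∀ (n : ℕ) (G : SimpleGraph (Fin n)) (adj : Fin n → List (Fin n)), 1 ≤ n →
        (∀ v, (adj v).Nodup ∧ ∀ u, u ∈ adj v ↔ G.Adj v u) →
        (∀ ρ : ℕ → ℕ, (Crest.WordRAM.run P (c₀ * Nat.clog 2 (n + 2)) ρ (adjInput n adj)
            ⌈(C : ℝ) * ((n + (∑ v, (adj v).length) / 2 : ℕ) : ℝ) ^
              (1 + η (n + (∑ v, (adj v).length) / 2))⌉₊).halted = true) ∧
        2 / 3 ≤ Crest.WordRAM.probAfter P (c₀ * Nat.clog 2 (n + 2)) (adjInput n adj)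
            ⌈(C : ℝ) * ((n + (∑ v, (adj v).length) / 2 : ℕ) : ℝ) ^
              (1 + η (n + (∑ v, (adj v).length) / 2))⌉₊
            (fun c => IsMaxMatchingOutput G c.output) := by
  exact N325.Fin.goal_of_seams N325.Fin.oracleStmt (N325.Fin.match_of_core (N325.Fin.core_of_ev
    (N325.Fin.ev_of fun _ _ => ⟨N325.P2.finE, N325.P2.impl_finE, fun _ h => N325.P2.Cx.finSpec h⟩)))

end Crest.Agent.S0502
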