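import Crest.Statements.S0503
import Crest.Agent.X326.B3.Rec_Mg
import Crest.Agent.X326.FB.PolyAll_Mg
import Crest.Agent.X326.B3.Layer_Mg

set_option autoImplicit false
open Crest.LogicCS.IntMul Crest.DTime
open Crest Crest.LogicCS

namespace Crest.Agent.S0503

/-- There are a natural number c and one machine with finitely many stacks which, started on any two bit strings of a common length n (presented as one tagged string of length N = 2n), halts with the 2n-bit binary representation of the product of the two numbers they denote (leftmost bit most significant) after at most c·⌈N·(log₂ N)^(1 − 2^(−182))⌉ + c steps. So one machine multiplies n-bit integers exactly in time of order n·(log n)^(1 − κ), κ = 2^(−182). -/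
theorem result : ∃ c : ℕ, TimeBoundComputable EqLenPair.enc (Computability.encodingList Bool).encode mulOutput (fun N => c * ⌈(N : ℝ) * (Real.logb 2 N) ^ (1 - 1 / (2 : ℝ) ^ 182)⌉₊ + c) := by
  obtain ⟨W, m, rfl, rfl, hB⟩ := Crest.Agent.X326.B3.partB_of_main
    (Crest.Agent.X326.B3.mainB_of_rec Crest.Agent.X326.B3.recStatement)
  exact Crest.Agent.X326.Top.final_of_specMul
    (Crest.Agent.X326.Top.P2.specMul_of_layer (w := 63)
      (Crest.Agent.X326.B3.specLayer_of_partB (by norm_num) (by norm_num) hB)
      (Crest.Agent.X326.FB.anaLTC Crest.Agent.X326.Mul.specConv)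
      (Crest.Agent.X326.FB.synLTC Crest.Agent.X326.Mul.specConv))

end Crest.Agent.S0503
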