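import Crest.Statements.S0527
import Crest.Agent.N337.C.LD_Mg
import Crest.Agent.N337.C.Fin

set_option autoImplicit false
open Filter Topology Crest.MathPhysics.SpinModel
open Crest Crest.MathPhysics

namespace Crest.Agent.S0527

/-- Spin-`S` nearest-neighbour Heisenberg ferromagnet on the periodic cubes `(ℤ/Lℤ)³` (`twoS = 2S`): the periodic pressures along even `L` converge for `β > 0` and every field, the limit has a right field-derivative `m β` at `0`, and for some `β₀ > 0` and all `β ≥ β₀`: `m β > 0`; for nonzero `t : ℝ³` the zero-field Gibbs mean of `exp (L⁻³ ∑ t_a M^a)` (`M^a` the total spin components) tends along even `L` to `sinh (m β r) / (m β r)`, `r = ‖t‖`; and `L⁻⁶ ∑_{x,y} ⟨S_x · S_y⟩` tends to `(m β)²`. -/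
theorem result (twoS : ℕ)
    (hS : 1 ≤ twoS) :
    ∃ (p : ℝ → ℝ → ℝ) (m : ℝ → ℝ), IsPeriodicPressure 3 twoS p ∧ IsMagnetization p m ∧
      ∃ β₀ : ℝ, 0 < β₀ ∧ ∀ β : ℝ, β₀ ≤ β →
        0 < m β ∧
        (∀ t : Fin 3 → ℝ, t ≠ 0 →
          Tendsto (fun n : ℕ => torusGibbs 3 (2 * n) twoS β
              (NormedSpace.exp (((1 : ℂ) / (((2 * n : ℕ) : ℂ) ^ 3)) •
                ∑ a : Fin 3, ((t a : ℝ) : ℂ) • torusSpin 3 (2 * n) twoS a)))
            atTop (𝓝 ((Real.sinh (m β * Real.sqrt (∑ a, t a ^ 2)) /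
              (m β * Real.sqrt (∑ a, t a ^ 2)) : ℝ) : ℂ))) ∧
        Tendsto (fun n : ℕ => ((1 : ℂ) / (((2 * n : ℕ) : ℂ) ^ 3) ^ 2) *
            ∑ x : Torus 3 (2 * n), ∑ y : Torus 3 (2 * n), torusGibbs 3 (2 * n) twoS β (spinDotOn twoS x y))
          atTop (𝓝 (((m β) ^ 2 : ℝ) : ℂ)) := by
  exact N337.C.fin N337.M.polarAll twoS hS

end Crest.Agent.S0527
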