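import Crest.Statements.S0529
import Crest.Agent.R338.CE11_Mg

set_option autoImplicit false
open Crest.Quantum.QMA Crest.MathPhysics.CoulombProblem
open Crest Crest.MathPhysics

namespace Crest.Agent.S0529

/-- The electronic ground-energy promise problem for clamped unit nuclei (instances: pairwise distinct rational nuclear positions, all charges one; `N ≥ 1` electrons, in unary; rational thresholds `a`, `b` with `b - a ≥ 1`; YES when the infimum `E₀` of the Coulomb energy over antisymmetric spinful `N`-electron unit states is `≤ a`, NO when it is `≥ b`) is QMA-hard: every promise problem with a polynomial-time uniform quantum verifier reduces to it by a polynomial-time many-one reduction. -/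
theorem result :
    QMAHard groundEnergyProblem := by
  exact Crest.Agent.R338.Top.main_of' Crest.Agent.R338.CE.coulC

end Crest.Agent.S0529
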